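import Vale.Agent.P207.N3.H465.Dist

/-!
# P207, line N3, R2: the universal cover as a metric space `Mt S p`

The topology is (definitionally) the topology of the vector space `E`. The isometric embeddings
of `ℝ` are the geodesics `t ↦ ex S p q (t • v)` with a unit vector `v`.
-/

open Set Filter Topology
open scoped unitInterval

noncomputable section

set_option linter.unusedSectionVars false

namespace Vale.Agent.P207.N3.H465

open Vale.Agent.P255 (ExpSys)

variable {E M : Type} [NormedAddCommGroup E] [NormedSpace ℝ E] [FiniteDimensional ℝ E]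
  [TopologicalSpace M]

section

variable (S : ExpSys E M) (p : M)

/-! ### geodesics, in terms of `dd` -/

/-- collinearity in the comparison inequality -/
theorem smul_eq_of_sub_le {m : M} {v w : E} {s t : ℝ} (hv : S.nrm m v = s)
    (hw : S.nrm m w = t) (hs : 0 ≤ s) (hst : s ≤ t) (h : S.nrm m (w - v) ≤ t - s) :
    t • v = s • w := by
  have h1 : S.nrm m (w - v) ^ 2 ≤ (t - s) ^ 2 := pow_le_pow_left₀ (S.nrm_nonneg _ _) h 2
  have hv2 : S.ip m v v = s ^ 2 := by rw [← S.nrm_sq, hv]
  have hw2 : S.ip m w w = t ^ 2 := by rw [← S.nrm_sq, hw]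
  rw [S.nrm_sq, S.ip_sub, hv2, hw2] at h1
  have hsym : S.ip m v w = S.ip m w v := S.ip_symm m v w
  have h2 : S.ip m (t • v - s • w) (t • v - s • w) ≤ 0 := by
    rw [S.ip_sub]
    simp only [map_smul, smul_apply, smul_eq_mul]
    rw [hv2, hw2, hsym]
    have h3 : s * t ≤ S.ip m w v := by nlinarith
    have h4 : 0 ≤ s * t := mul_nonneg hs (hs.trans hst)
    nlinarith [mul_le_mul_of_nonneg_left h3 h4]
  have h5 : t • v - s • w = 0 := by
    by_contra hne
    exact absurd (S.ip_pos m _ hne) (not_lt.2 h2)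
  exact sub_eq_zero.1 h5

theorem iso_pos {c : ℝ → E} (hc : ∀ s t, dd S p (c s) (c t) = |s - t|) {t : ℝ} (ht : 0 ≤ t) :
    lg S p (c 0) (c t) = t • lg S p (c 0) (c 1) := by
  have hn : ∀ t : ℝ, 0 ≤ t → S.nrm (S.e p (c 0)) (lg S p (c 0) (c t)) = t := fun t ht => by
    have := hc 0 t
    rw [zero_sub, abs_neg, abs_of_nonneg ht] at this
    exact this
  have hle : ∀ s t : ℝ, s ≤ t →
      S.nrm (S.e p (c 0)) (lg S p (c 0) (c t) - lg S p (c 0) (c s)) ≤ t - s := fun s t hst => by
    have h1 := nrm_lg_sub_le S p (c 0) (c s) (c t)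
    rw [hc, abs_sub_comm, abs_of_nonneg (sub_nonneg.2 hst)] at h1
    exact h1
  rcases le_total t 1 with h | h
  · have h1 := smul_eq_of_sub_le S (hn t ht) (hn 1 zero_le_one) ht h (hle t 1 h)
    rwa [one_smul] at h1
  · have h1 := smul_eq_of_sub_le S (hn 1 zero_le_one) (hn t ht) zero_le_one h (hle 1 t h)
    rw [one_smul] at h1
    exact h1.symm

/-- isometric embeddings of the line are geodesics -/
theorem iso_eq {c : ℝ → E} (hc : ∀ s t, dd S p (c s) (c t) = |s - t|) :
    ∃ u : E, S.nrm (S.e p (c 0)) u = 1 ∧ ∀ t, c t = ex S p (c 0) (t • u) := by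
  set u := lg S p (c 0) (c 1) with hu
  have hu1 : S.nrm (S.e p (c 0)) u = 1 := by
    have := hc 0 1
    rw [zero_sub, abs_neg, abs_one] at this
    exact this
  refine ⟨u, hu1, fun t => ?_⟩
  have hpos : ∀ t : ℝ, 0 ≤ t → c t = ex S p (c 0) (t • u) := fun t ht => by
    have h1 := iso_pos S p hc ht
    rw [← hu] at h1
    have h2 := ex_lg S p (c 0) (c t)
    rw [h1] at h2
    exact h2.symm
  rcases le_total 0 t with ht | ht
  · exact hpos t ht
  · set s := -t with hs
    have hs0 : 0 ≤ s := by rw [hs]; linarith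
    -- the shifted line
    have hc' : ∀ a b : ℝ, dd S p (c (a - s)) (c (b - s)) = |a - b| := fun a b => by
      rw [hc]
      congr 1
      ring
    set u' := lg S p (c (0 - s)) (c (1 - s)) with hu'
    have hpos' : ∀ r : ℝ, 0 ≤ r → c (r - s) = ex S p (c (0 - s)) (r • u') := fun r hr => by
      have h1 := iso_pos S p (c := fun r => c (r - s)) hc' hr
      have h2 := ex_lg S p (c (0 - s)) (c (r - s))
      rw [h1] at h2
      exact h2.symm
    obtain ⟨w, hw1, hw2⟩ := ex_shift S p (c (0 - s)) u' s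
    have h0 : ex S p (c (0 - s)) (s • u') = c 0 := by
      rw [← hpos' s hs0, sub_self]
    rw [h0] at hw1 hw2
    have h3 : ∀ r : ℝ, -s ≤ r → c r = ex S p (c 0) (r • w) := fun r hr => by
      have h4 := hpos' (s + r) (by linarith)
      rw [hw2 r] at h4
      rw [← h4]
      congr 1
      ring
    have hwu : w = u := by
      have h4 := h3 1 (by linarith)
      rw [one_smul] at h4
      rw [hu, h4, lg_ex]
    have h5 := h3 t (by rw [hs]; linarith)
    rw [hwu] at h5
    exact h5

/-- two points lie on a line -/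
theorem iso_exists [Nontrivial E] (x y : E) :
    ∃ v : E, S.nrm (S.e p x) v = 1 ∧ ex S p x (dd S p x y • v) = y := by
  have key : ∃ v : E, S.nrm (S.e p x) v = 1 ∧ dd S p x y • v = lg S p x y := by
    rcases eq_or_ne (dd S p x y) 0 with h | h
    · obtain ⟨w, hw⟩ := exists_ne (0 : E)
      have hw0 : 0 < S.nrm (S.e p x) w := Real.sqrt_pos.2 (S.ip_pos _ w hw)
      refine ⟨(S.nrm (S.e p x) w)⁻¹ • w, ?_, ?_⟩
      · rw [nrm_smul, abs_of_pos (inv_pos.2 hw0), inv_mul_cancel₀ hw0.ne']
      · rw [h, zero_smul]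
        have h2 : S.nrm (S.e p x) (lg S p x y) = 0 := h
        exact (S.eq_zero_of_nrm h2).symm
    · refine ⟨(dd S p x y)⁻¹ • lg S p x y, ?_, ?_⟩
      · rw [nrm_smul, abs_of_nonneg (inv_nonneg.2 (dd_nonneg S p x y))]
        exact inv_mul_cancel₀ h
      · rw [smul_smul, mul_inv_cancel₀ h, one_smul]
  obtain ⟨v, hv1, hv2⟩ := key
  exact ⟨v, hv1, by rw [hv2, ex_lg]⟩

/-- lines do not branch -/
theorem iso_nonbranch {c c' : ℝ → E} (hc : ∀ s t, dd S p (c s) (c t) = |s - t|)
    (hc' : ∀ s t, dd S p (c' s) (c' t) = |s - t|) {T : ℝ} (hT : 0 < T)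
    (h0 : c 0 = c' 0) (h1 : c T = c' T) : c = c' := by
  obtain ⟨u, hu, hcu⟩ := iso_eq S p hc
  obtain ⟨u', hu', hcu'⟩ := iso_eq S p hc'
  have h2 : lg S p (c 0) (c T) = T • u := by rw [hcu T, lg_ex]
  have h3 : lg S p (c 0) (c T) = T • u' := by rw [h1, hcu' T, h0, lg_ex]
  have h4 : u = u' := by
    rw [h2] at h3
    exact smul_right_injective E hT.ne' h3
  funext t
  rw [hcu, hcu', h4, h0]

theorem dd_geo (q : E) {v : E} (hv : S.nrm (S.e p q) v = 1) (s t : ℝ) :
    dd S p (ex S p q (s • v)) (ex S p q (t • v)) = |s - t| := by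
  rw [dd_ex_ex, hv, mul_one, abs_sub_comm]

/-! ### the metric space -/

/-- the universal cover -/
def Mt (_S : ExpSys E M) (_p : M) : Type := id E

/-- the metric, with its own topology -/
@[reducible] def metricAux : MetricSpace E where
  dist := dd S p
  dist_self := dd_self S p
  dist_comm := dd_comm S p
  dist_triangle := dd_triangle S p
  eq_of_dist_eq_zero := eq_of_dd S p

theorem topology_eq : (inferInstance : TopologicalSpace E) =
    (metricAux S p).toUniformSpace.toTopologicalSpace := by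
  apply TopologicalSpace.ext_nhds
  intro q
  have hb := @Metric.nhds_basis_ball E (metricAux S p).toPseudoMetricSpace q
  apply le_antisymm
  · intro U hU
    obtain ⟨ε, hε, hεU⟩ := hb.mem_iff.1 hU
    have h1 : ∀ᶠ x in 𝓝 q, dd S p q x < ε := (tendsto_dd_self S p q).eventually_lt_const hε
    filter_upwards [h1] with x hx
    apply hεU
    change dd S p x q < ε
    rw [dd_comm]
    exact hx
  · intro U hU
    obtain ⟨ε, hε, h⟩ := exists_ball_subset S p q hU
    refine hb.mem_iff.2 ⟨ε, hε, fun x hx => h x ?_⟩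
    have h2 : dd S p x q < ε := hx
    rw [dd_comm] at h2
    exact h2

instance : TopologicalSpace (Mt S p) := inferInstanceAs (TopologicalSpace E)

instance instMetricMt : MetricSpace (Mt S p) := (metricAux S p).replaceTopology (topology_eq S p)

/-- a point of `E` as a point of the metric space -/
def toMt (x : E) : Mt S p := x

/-- the coordinates of a point -/
def ofMt (x : Mt S p) : E := x

@[simp] theorem toMt_ofMt (x : Mt S p) : toMt S p (ofMt S p x) = x := rfl

@[simp] theorem ofMt_toMt (x : E) : ofMt S p (toMt S p x) = x := rfl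

theorem continuous_toMt : Continuous (toMt S p) := continuous_id (X := E)

theorem continuous_ofMt : Continuous (ofMt S p) := continuous_id (X := E)

/-- the identity as a homeomorphism -/
def homeoMt : E ≃ₜ Mt S p where
  toFun := toMt S p
  invFun := ofMt S p
  left_inv _ := rfl
  right_inv _ := rfl
  continuous_toFun := continuous_toMt S p
  continuous_invFun := continuous_ofMt S p

theorem dist_Mt (x y : Mt S p) : dist x y = dd S p (ofMt S p x) (ofMt S p y) := rfl

theorem dist_toMt (x y : E) : dist (toMt S p x) (toMt S p y) = dd S p x y := rfl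

theorem isCompact_closedBall_Mt (q : E) (R : ℝ) :
    IsCompact (Metric.closedBall (toMt S p q) R) := by
  have h : IsCompact (toMt S p '' {x : E | dd S p q x ≤ R}) :=
    (isCompact_dd_le S p q R).image (continuous_toMt S p)
  refine h.of_isClosed_subset Metric.isClosed_closedBall ?_
  intro x hx
  refine ⟨ofMt S p x, ?_, rfl⟩
  have h2 : dd S p (ofMt S p x) q ≤ R := hx
  rw [dd_comm] at h2
  exact h2

instance : ProperSpace (Mt S p) := ⟨fun q R => isCompact_closedBall_Mt S p (ofMt S p q) R⟩

instance : MulAction (Deck (S.e p)) (Mt S p) := inferInstanceAs (MulAction (Deck (S.e p)) E)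

theorem ofMt_smul (g : Deck (S.e p)) (x : Mt S p) : ofMt S p (g • x) = g • ofMt S p x := rfl

instance : IsIsometricSMul (Deck (S.e p)) (Mt S p) := ⟨fun g => Isometry.of_dist_eq fun x y =>
  dd_smul S p g (ofMt S p x) (ofMt S p y)⟩

/-- the exponential map as a map into the metric space -/
def Ex (q : Mt S p) (v : E) : Mt S p := toMt S p (ex S p (ofMt S p q) v)

/-- the image in `M` -/
def prj (q : Mt S p) : M := S.e p (ofMt S p q)

theorem dist_Ex (q : Mt S p) (v : E) : dist q (Ex S p q v) = S.nrm (prj S p q) v :=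
  dd_ex S p (ofMt S p q) v

theorem Ex_smul (g : Deck (S.e p)) (q : Mt S p) (v : E) : Ex S p (g • q) v = g • Ex S p q v :=
  ex_smul S p g (ofMt S p q) v

theorem isometry_Ex (q : Mt S p) {v : E} (hv : S.nrm (prj S p q) v = 1) :
    Isometry fun t : ℝ => Ex S p q (t • v) := Isometry.of_dist_eq fun s t =>
  (dd_geo S p (ofMt S p q) hv s t).trans (Real.dist_eq s t).symm

theorem dd_of_isometry {c : ℝ → Mt S p} (hc : Isometry c) (s t : ℝ) :
    dd S p (ofMt S p (c s)) (ofMt S p (c t)) = |s - t| :=
  (hc.dist_eq s t).trans (Real.dist_eq s t)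

/-- isometric embeddings of the line are geodesics -/
theorem isometry_eq {c : ℝ → Mt S p} (hc : Isometry c) :
    ∃ u : E, S.nrm (prj S p (c 0)) u = 1 ∧ ∀ t, c t = Ex S p (c 0) (t • u) :=
  iso_eq S p (c := fun t => ofMt S p (c t)) (dd_of_isometry S p hc)

/-- two points lie on a line -/
theorem exists_line [Nontrivial E] (x y : Mt S p) :
    ∃ c : ℝ → Mt S p, Isometry c ∧ c 0 = x ∧ c (dist x y) = y := by
  obtain ⟨v, hv1, hv2⟩ := iso_exists S p (ofMt S p x) (ofMt S p y)
  refine ⟨fun t => Ex S p x (t • v), isometry_Ex S p x hv1, ?_, hv2⟩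
  have h : ex S p (ofMt S p x) ((0 : ℝ) • v) = ofMt S p x := by rw [zero_smul, ex_zero]
  exact h

/-- lines do not branch -/
theorem nonbranch {c c' : ℝ → Mt S p} (hc : Isometry c) (hc' : Isometry c') {T : ℝ} (hT : 0 < T)
    (h0 : c 0 = c' 0) (h1 : c T = c' T) : c = c' :=
  iso_nonbranch S p (c := fun t => ofMt S p (c t)) (c' := fun t => ofMt S p (c' t))
    (dd_of_isometry S p hc) (dd_of_isometry S p hc') hT h0 h1

end

end Vale.Agent.P207.N3.H465
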