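import Vale.Agent.P207.N3.H465.Cmp

/-!
# P207, line N3, R2: the metric of `X = PB (S.e p) pt`

* `instance : MetricSpace (PB (S.e p) pt)`: `dist x y = max (dd x.q y.q) (dist x.f y.f)`; the
  topology is definitionally that of `PB`; `ProperSpace`, `IsIsometricSMul (Deck (S.e p))`.
* `Xt g h p = PB ((sys g h).e p) Fr.pt`; `exists_dist_le_f`: `f : Xt g h p → Fr g` is locally
  bi-Lipschitz, uniformly.
* `lift_lip`, `lift_speed`, `lift_lip_global`: lifts of Lipschitz flows are Lipschitz.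
-/

open scoped Manifold ContDiff ENNReal Topology NNReal
open Bundle MeasureTheory Set Filter Topology

noncomputable section

set_option maxSynthPendingDepth 3
set_option linter.unusedSectionVars false

namespace Vale.Agent.P207.N3.H465

open Vale.Agent.P207.Q
open Vale.Agent.P255 (RMetric coefIn Gam Riem IsGeo Metric Npc ExpSys toMetric geo expg cc trans
  IsGeodesic coefL chris chrisB IsMetricOn covD)

/-! ### the metric of the pull back -/

section PBMet

variable {E M F : Type} [NormedAddCommGroup E] [NormedSpace ℝ E] [FiniteDimensional ℝ E]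
  [TopologicalSpace M] [MetricSpace F]

variable {S : ExpSys E M} {p : M} {pt : F → M}

/-- the pull back in the product of metric spaces -/
def PB.prodM (x : PB (S.e p) pt) : Mt S p × F := (toMt S p x.q, x.f)

theorem PB.isEmbedding_prodM : IsEmbedding (PB.prodM (S := S) (p := p) (pt := pt)) :=
  PB.isEmbedding_val (e := S.e p) (pt := pt)

/-- the metric of `X` -/
instance PB.instMetricSpace : MetricSpace (PB (S.e p) pt) :=
  PB.isEmbedding_prodM.comapMetricSpace PB.prodM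

theorem PB.dist_eq (x y : PB (S.e p) pt) :
    dist x y = max (dd S p x.q y.q) (dist x.f y.f) := rfl

theorem PB.dd_le (x y : PB (S.e p) pt) : dd S p x.q y.q ≤ dist x y := le_max_left _ _

theorem PB.dist_f_le (x y : PB (S.e p) pt) : dist x.f y.f ≤ dist x y := le_max_right _ _

instance PB.instIsIsometricSMul : IsIsometricSMul (Deck (S.e p)) (PB (S.e p) pt) :=
  ⟨fun g => Isometry.of_dist_eq fun x y => by
    rw [PB.dist_eq, PB.dist_eq, PB.q_smul, PB.q_smul, PB.f_smul, PB.f_smul, dd_smul]⟩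

/-- the foot point -/
def PB.ft (x : PB (S.e p) pt) : Mt S p := toMt S p x.q

theorem PB.continuous_ft : Continuous (PB.ft (S := S) (p := p) (pt := pt)) :=
  (continuous_toMt S p).comp PB.continuous_q

theorem PB.ft_smul (g : Deck (S.e p)) (x : PB (S.e p) pt) : (g • x).ft = g • x.ft := rfl

theorem PB.dist_ft_le (x y : PB (S.e p) pt) : dist x.ft y.ft ≤ dist x y := PB.dd_le x y

theorem PB.isCompact_preimage_ft [CompactSpace F] [T2Space M] (hpt : Continuous pt)
    {K : Set (Mt S p)} (hK : IsCompact K) :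
    IsCompact (PB.ft (S := S) (p := p) (pt := pt) ⁻¹' K) := by
  let K' : Set E := K
  have hK' : IsCompact K' := hK
  have h2 := (PB.isClosedEmbedding_val (e := S.e p) (pt := pt) (S.cov p).continuous
    hpt).isCompact_preimage (hK'.prod (isCompact_univ (X := F)))
  have h3 : PB.ft (S := S) (p := p) (pt := pt) ⁻¹' K =
      Subtype.val ⁻¹' (K' ×ˢ (univ : Set F)) := by
    ext y
    exact ⟨fun hy => ⟨hy, mem_univ _⟩, fun hy => hy.1⟩
  rw [h3]
  exact h2

theorem PB.isCompact_closedBall [CompactSpace F] [T2Space M] (hpt : Continuous pt)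
    (x : PB (S.e p) pt) (R : ℝ) : IsCompact (Metric.closedBall x R) := by
  refine (PB.isCompact_preimage_ft hpt (ProperSpace.isCompact_closedBall x.ft R)).of_isClosed_subset
    Metric.isClosed_closedBall fun y hy => ?_
  exact (PB.dist_ft_le y x).trans hy

end PBMet

/-! ### lifts of flows in metric spaces with a local bi-Lipschitz projection -/

section LiftLip

variable {X Z : Type} [MetricSpace X] [MetricSpace Z] {P : X → Z}

/-- continuity argument: a continuous function with a gap -/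
theorem lt_of_gap {f : ℝ → ℝ} (hf : Continuous f) {a b T : ℝ} (hab : a < b) (h0 : f 0 < b)
    (hgap : ∀ t, |t| ≤ T → f t < b → f t ≤ a) {t : ℝ} (ht : |t| ≤ T) : f t ≤ a := by
  have hT : 0 ≤ T := (abs_nonneg t).trans ht
  by_contra hcon
  have hft : b ≤ f t := by
    by_contra h1
    exact hcon (hgap t ht (not_le.1 h1))
  have h0' : f 0 ≤ a := hgap 0 (by simpa using hT) h0
  -- intermediate value
  have hmid : (a + b) / 2 ∈ f '' uIcc 0 t := by
    refine intermediate_value_uIcc hf.continuousOn ?_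
    rw [mem_uIcc]
    left
    constructor <;> linarith
  obtain ⟨s, hs, hfs⟩ := hmid
  have hs' : |s| ≤ T := by
    have h2 : |s| ≤ |t| := by
      rcases le_total 0 t with h | h
      · rw [uIcc_of_le h] at hs
        rw [abs_of_nonneg hs.1, abs_of_nonneg h]
        exact hs.2
      · rw [uIcc_of_ge h] at hs
        rw [abs_of_nonpos hs.2, abs_of_nonpos h]
        linarith [hs.1]
    exact h2.trans ht
  have h3 := hgap s hs' (by linarith)
  linarith

/-- lifts of Lipschitz flows are locally Lipschitz -/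
theorem lift_lip {C₀ r₀ : ℝ} (hC₀ : 0 < C₀) (hr₀ : 0 < r₀)
    (hP1 : ∀ x y, dist (P x) (P y) ≤ dist x y)
    (hP : ∀ x y, dist x y < r₀ → dist x y ≤ C₀ * dist (P x) (P y))
    {Φ : ℝ → X → X} (hΦ : ∀ x, Continuous fun t => Φ t x) (hΦ0 : ∀ x, Φ 0 x = x)
    {φ : ℝ → Z → Z} (hφ : ∀ t x, P (Φ t x) = φ t (P x)) {T L : ℝ} (hL : 0 < L)
    (hlip : ∀ t, |t| ≤ T → ∀ z z', dist (φ t z) (φ t z') ≤ L * dist z z') {x y : X}
    (hxy : dist x y < min r₀ (r₀ / (2 * C₀ * L))) {t : ℝ} (ht : |t| ≤ T) :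
    dist (Φ t x) (Φ t y) ≤ C₀ * L * dist x y := by
  have h1 : ∀ t, |t| ≤ T → dist (Φ t x) (Φ t y) < r₀ →
      dist (Φ t x) (Φ t y) ≤ C₀ * L * dist x y := by
    intro t ht hlt
    calc dist (Φ t x) (Φ t y) ≤ C₀ * dist (P (Φ t x)) (P (Φ t y)) := hP _ _ hlt
      _ ≤ C₀ * (L * dist (P x) (P y)) := by
        rw [hφ, hφ]
        exact mul_le_mul_of_nonneg_left (hlip t ht _ _) hC₀.le
      _ ≤ C₀ * (L * dist x y) :=
        mul_le_mul_of_nonneg_left (mul_le_mul_of_nonneg_left (hP1 x y) hL.le) hC₀.le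
      _ = _ := by ring
  have h2 : C₀ * L * dist x y < r₀ := by
    have h3 : dist x y < r₀ / (2 * C₀ * L) := hxy.trans_le (min_le_right _ _)
    rw [lt_div_iff₀ (by positivity)] at h3
    nlinarith [mul_nonneg (mul_nonneg hC₀.le hL.le) (dist_nonneg (x := x) (y := y))]
  refine lt_of_gap (f := fun t => dist (Φ t x) (Φ t y)) ((hΦ x).dist (hΦ y)) h2 ?_ h1 ht
  rw [hΦ0, hΦ0]
  exact hxy.trans_le (min_le_left _ _)

/-- lifts of curves of bounded speed have bounded speed -/
theorem lift_speed {C₀ r₀ : ℝ} (hC₀ : 0 < C₀) (hr₀ : 0 < r₀)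
    (hP : ∀ x y, dist x y < r₀ → dist x y ≤ C₀ * dist (P x) (P y))
    {c : ℝ → X} (hc : Continuous c) {v : ℝ} (hv : 0 < v)
    (hs : ∀ s t, dist (P (c s)) (P (c t)) ≤ v * |s - t|) (s t : ℝ) :
    dist (c s) (c t) ≤ C₀ * v * |s - t| := by
  -- short times
  have hshort : ∀ s t, |s - t| ≤ r₀ / (2 * C₀ * v) → dist (c s) (c t) ≤ C₀ * v * |s - t| := by
    intro s t hst
    set T := r₀ / (2 * C₀ * v) with hT
    have h1 : ∀ u, |u| ≤ T → dist (c (s + u)) (c s) < r₀ →
        dist (c (s + u)) (c s) ≤ r₀ / 2 := by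
      intro u hu hlt
      calc dist (c (s + u)) (c s) ≤ C₀ * dist (P (c (s + u))) (P (c s)) := hP _ _ hlt
        _ ≤ C₀ * (v * |s + u - s|) := mul_le_mul_of_nonneg_left (hs _ _) hC₀.le
        _ = C₀ * v * |u| := by rw [add_sub_cancel_left]; ring
        _ ≤ C₀ * v * T := mul_le_mul_of_nonneg_left hu (by positivity)
        _ = r₀ / 2 := by rw [hT]; field_simp
    have h2 : dist (c (s + (t - s))) (c s) ≤ r₀ / 2 := by
      refine lt_of_gap (f := fun u => dist (c (s + u)) (c s)) (b := r₀) (T := T) ?_ (by linarith)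
        ?_ h1 ?_
      · exact (hc.comp (continuous_const.add continuous_id)).dist continuous_const
      · rw [add_zero, dist_self]
        exact hr₀
      · rw [abs_sub_comm]
        exact hst
    rw [add_sub_cancel] at h2
    rw [dist_comm] at h2
    calc dist (c s) (c t) ≤ C₀ * dist (P (c s)) (P (c t)) := hP _ _ (by linarith)
      _ ≤ C₀ * (v * |s - t|) := mul_le_mul_of_nonneg_left (hs _ _) hC₀.le
      _ = _ := by ring
  -- subdivide
  set T := r₀ / (2 * C₀ * v) with hT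
  have hT0 : 0 < T := by positivity
  obtain ⟨N, hN⟩ := exists_nat_gt (|s - t| / T)
  have hN0 : 0 < (N : ℝ) := lt_of_le_of_lt (by positivity) hN
  have hstep : |(t - s) / N| ≤ T := by
    rw [abs_div, abs_of_pos hN0, div_le_iff₀ hN0, abs_sub_comm]
    rw [div_lt_iff₀ hT0] at hN
    linarith
  have hind : ∀ k : ℕ, dist (c s) (c (s + k * ((t - s) / N))) ≤
      C₀ * v * (k * |(t - s) / N|) := by
    intro k
    induction k with
    | zero => simp
    | succ k ih =>
      have h3 : (s + (k : ℝ) * ((t - s) / N)) - (s + ((k + 1 : ℕ) : ℝ) * ((t - s) / N)) =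
          -((t - s) / N) := by
        push_cast
        ring
      have h4 := hshort (s + (k : ℝ) * ((t - s) / N)) (s + ((k + 1 : ℕ) : ℝ) * ((t - s) / N))
        (by rw [h3, abs_neg]; exact hstep)
      rw [h3, abs_neg] at h4
      calc dist (c s) (c (s + ((k + 1 : ℕ) : ℝ) * ((t - s) / N))) ≤
            dist (c s) (c (s + (k : ℝ) * ((t - s) / N))) +
              dist (c (s + (k : ℝ) * ((t - s) / N))) (c (s + ((k + 1 : ℕ) : ℝ) * ((t - s) / N))) :=
            dist_triangle _ _ _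
        _ ≤ C₀ * v * (k * |(t - s) / N|) + C₀ * v * |(t - s) / N| := add_le_add ih h4
        _ = _ := by push_cast; ring
  have h5 := hind N
  have h6 : s + (N : ℝ) * ((t - s) / N) = t := by
    field_simp
    ring
  rw [h6] at h5
  refine h5.trans (le_of_eq ?_)
  rw [abs_div, abs_of_pos hN0, abs_sub_comm t s]
  field_simp

/-- lifts of Lipschitz flows are Lipschitz -/
theorem lift_lip_global {C₀ r₀ : ℝ} (hC₀ : 0 < C₀) (hr₀ : 0 < r₀)
    (hP1 : ∀ x y, dist (P x) (P y) ≤ dist x y)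
    (hP : ∀ x y, dist x y < r₀ → dist x y ≤ C₀ * dist (P x) (P y))
    {Φ : ℝ → X → X} (hΦ : ∀ x, Continuous fun t => Φ t x) (hΦ0 : ∀ x, Φ 0 x = x)
    {φ : ℝ → Z → Z} (hφ : ∀ t x, P (Φ t x) = φ t (P x)) (T : ℝ) {L : ℝ} (hL : 0 < L)
    (hlip : ∀ t, |t| ≤ T → ∀ z z', dist (φ t z) (φ t z') ≤ L * dist z z') {v : ℝ} (hv : 0 < v)
    (hs : ∀ s t z, dist (φ s z) (φ t z) ≤ v * |s - t|) :
    ∃ C : ℝ, 0 < C ∧ ∀ t, |t| ≤ T → ∀ x y, dist (Φ t x) (Φ t y) ≤ C * dist x y := by
  set r₁ := min r₀ (r₀ / (2 * C₀ * L)) with hr₁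
  have hr₁0 : 0 < r₁ := lt_min hr₀ (by positivity)
  refine ⟨max (C₀ * L) (1 + 2 * (C₀ * v * |T|) / r₁), lt_max_of_lt_left (by positivity),
    fun t ht x y => ?_⟩
  rcases lt_or_ge (dist x y) r₁ with h | h
  · exact (lift_lip hC₀ hr₀ hP1 hP hΦ hΦ0 hφ hL hlip h ht).trans
      (mul_le_mul_of_nonneg_right (le_max_left _ _) dist_nonneg)
  · have hsp : ∀ z, dist (Φ t z) z ≤ C₀ * v * |T| := fun z => by
      have h1 := lift_speed hC₀ hr₀ hP (hΦ z) hv (fun s t => by
        rw [hφ, hφ]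
        exact hs s t (P z)) t 0
      rw [hΦ0, sub_zero] at h1
      refine h1.trans (mul_le_mul_of_nonneg_left (ht.trans (le_abs_self T)) (by positivity))
    have h2 : dist (Φ t x) (Φ t y) ≤ dist x y + 2 * (C₀ * v * |T|) := by
      have h3 := dist_triangle4 (Φ t x) x y (Φ t y)
      have h4 := hsp x
      have h5 := hsp y
      rw [dist_comm] at h5
      linarith
    have h3 : 2 * (C₀ * v * |T|) ≤ 2 * (C₀ * v * |T|) / r₁ * dist x y := by
      rw [div_mul_eq_mul_div, le_div_iff₀ hr₁0]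
      exact mul_le_mul_of_nonneg_left h (by positivity)
    calc dist (Φ t x) (Φ t y) ≤ dist x y + 2 * (C₀ * v * |T|) := h2
      _ ≤ (1 + 2 * (C₀ * v * |T|) / r₁) * dist x y := by rw [add_mul, one_mul]; linarith
      _ ≤ _ := mul_le_mul_of_nonneg_right (le_max_right _ _) dist_nonneg

end LiftLip

/-! ### the space `X` -/

section X

variable {n : ℕ} {M : Type} [TopologicalSpace M] [ChartedSpace (EV n) M]
  [IsManifold 𝓘(ℝ, EV n) ∞ M] [CompactSpace M] [T2Space M]

/-- the frames of the universal cover -/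
abbrev Xt (g : RMetric (EV n) M) (h : Npc (mt g)) (p : M) : Type :=
  PB ((sys g h).e p) (Fr.pt (g := g))

variable {g : RMetric (EV n) M} {h : Npc (mt g)} {p : M}

instance [NeZero n] : ProperSpace (Xt g h p) :=
  ⟨fun x R => PB.isCompact_closedBall Fr.continuous_pt x R⟩

theorem Xt.isCompact_preimage_ft [NeZero n] {K : Set (Mt (sys g h) p)} (hK : IsCompact K) :
    IsCompact (PB.ft (S := sys g h) (p := p) (pt := Fr.pt (g := g)) ⁻¹' K) :=
  PB.isCompact_preimage_ft Fr.continuous_pt hK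

/-- the projection `X → Fr g` is locally bi-Lipschitz, uniformly -/
theorem Xt.exists_dist_le_f [NeZero n] [PreconnectedSpace M] (g : RMetric (EV n) M)
    (h : Npc (mt g)) (p : M) : ∃ C r : ℝ, 0 < C ∧ 0 < r ∧ ∀ x y : Xt g h p,
      dd (sys g h) p x.q y.q < r → dist x y ≤ C * dist x.f y.f := by
  obtain ⟨C, r, hC, hr, H⟩ := exists_dd_le_norm h p
  refine ⟨C + 1, r, by positivity, hr, fun x y hxy => ?_⟩
  have h1 := H x.q y.q hxy
  have ex : expg (mt g) p x.q = x.f.pt := x.e_q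
  have ey : expg (mt g) p y.q = y.f.pt := y.e_q
  rw [ex, ey] at h1
  have h2 : ‖emM (n := n) x.f.pt - emM y.f.pt‖ ≤ dist x.f y.f := by
    rw [dist_fr]
    exact norm_fst_le (frE x.f - frE y.f)
  rw [PB.dist_eq]
  refine max_le ?_ ?_
  · refine (h1.trans (mul_le_mul_of_nonneg_left h2 hC.le)).trans ?_
    exact mul_le_mul_of_nonneg_right (by linarith) dist_nonneg
  · have : 0 ≤ C * dist x.f y.f := mul_nonneg hC.le dist_nonneg
    linarith

/-- lifts of flows of smooth fields are Lipschitz, for bounded times -/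
theorem Xt.exists_lift_lip [NeZero n] [PreconnectedSpace M] {Z : ChField g}
    {Ψ : ℝ → Fr g → Fr g} (hΨ : IsFlow Z Ψ) {Φ : ℝ → Xt g h p → Xt g h p}
    (hΦ : ∀ x, Continuous fun t => Φ t x) (hΦ0 : ∀ x, Φ 0 x = x)
    (hΦf : ∀ t x, (Φ t x).f = Ψ t x.f) (T : ℝ) :
    ∃ C : ℝ, 0 < C ∧ ∀ t, |t| ≤ T → ∀ x y, dist (Φ t x) (Φ t y) ≤ C * dist x y := by
  obtain ⟨C₀, r₀, hC₀, hr₀, hloc⟩ := Xt.exists_dist_le_f g h p
  obtain ⟨K, hK, hlip⟩ := hΨ.exists_dist_le
  obtain ⟨v, hv, hsp⟩ := exists_dist_flow_le hΨ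
  refine lift_lip_global (P := fun x : Xt g h p => x.f) hC₀ hr₀ (fun x y => PB.dist_f_le x y)
    (fun x y hxy => hloc x y ((PB.dd_le x y).trans_lt hxy)) hΦ hΦ0 hΦf T
    (L := Real.exp (K * |T|)) (Real.exp_pos _) (fun t ht z z' => (hlip t z z').trans ?_) hv hsp
  exact mul_le_mul_of_nonneg_right (Real.exp_le_exp.2 (mul_le_mul_of_nonneg_left
    (ht.trans (le_abs_self T)) hK.le)) dist_nonneg

/-- speed of the lifts of flows of smooth fields -/
theorem Xt.exists_lift_speed [NeZero n] [PreconnectedSpace M] {Z : ChField g}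
    {Ψ : ℝ → Fr g → Fr g} (hΨ : IsFlow Z Ψ) {Φ : ℝ → Xt g h p → Xt g h p}
    (hΦ : ∀ x, Continuous fun t => Φ t x)
    (hΦf : ∀ t x, (Φ t x).f = Ψ t x.f) :
    ∃ C : ℝ, 0 < C ∧ ∀ s t x, dist (Φ s x) (Φ t x) ≤ C * |s - t| := by
  obtain ⟨C₀, r₀, hC₀, hr₀, hloc⟩ := Xt.exists_dist_le_f g h p
  obtain ⟨v, hv, hsp⟩ := exists_dist_flow_le hΨ
  refine ⟨C₀ * v, by positivity, fun s t x => ?_⟩
  exact lift_speed (P := fun x : Xt g h p => x.f) hC₀ hr₀
    (fun x y hxy => hloc x y ((PB.dd_le x y).trans_lt hxy)) (hΦ x) hv (fun s t => by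
      rw [hΦf, hΦf]
      exact hsp s t x.f) s t

/-- rotations of `X` -/
def Xt.rot (A : Fr.On n) (x : Xt g h p) : Xt g h p := PB.mk x.q (Fr.rot A x.f) x.e_q

theorem Xt.q_rot (A : Fr.On n) (x : Xt g h p) : (Xt.rot A x).q = x.q := rfl

theorem Xt.f_rot (A : Fr.On n) (x : Xt g h p) : (Xt.rot A x).f = Fr.rot A x.f := rfl

theorem Xt.exists_rot_lip [NeZero n] : ∃ C : ℝ, 0 < C ∧ ∀ (A : Fr.On n) (x y : Xt g h p),
    dist (Xt.rot A x) (Xt.rot A y) ≤ C * dist x y := by
  obtain ⟨C, hC, H⟩ := exists_dist_rot_le (g := g)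
  refine ⟨C + 1, by positivity, fun A x y => ?_⟩
  rw [PB.dist_eq (Xt.rot A x)]
  have h1 : 0 ≤ C * dist x y := mul_nonneg hC.le dist_nonneg
  refine max_le ?_ ?_
  · rw [Xt.q_rot, Xt.q_rot]
    linarith [PB.dd_le x y]
  · rw [Xt.f_rot, Xt.f_rot]
    have h2 := mul_le_mul_of_nonneg_left (PB.dist_f_le x y) hC.le
    linarith [H A x.f y.f, dist_nonneg (x := x) (y := y)]

end X

end Vale.Agent.P207.N3.H465
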