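import Vale.Agent.P255.Bdl.B1
import Vale.Agent.P207.N3.H465.Cov

/-!
# P207, line N3, R2: the universal cover `E` with the distance of an exponential system

`S : ExpSys E M`, `p : M`; the covering is `S.e p : E → M`. For a point `q` of the cover,
`ex S p q : E ≃ₜ E` is the exponential map at `q` and `lg S p q` its inverse;
`dd S p q x = S.nrm (S.e p q) (lg S p q x)` is the distance.
-/

open Set Filter Topology
open scoped unitInterval

noncomputable section

set_option linter.unusedSectionVars false

namespace Vale.Agent.P207.N3.H465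

open Vale.Agent.P255 (ExpSys)

variable {E M : Type} [NormedAddCommGroup E] [NormedSpace ℝ E] [TopologicalSpace M]

section Basic

variable (S : ExpSys E M) (p : M)

theorem nrm_smul (m : M) (c : ℝ) (v : E) : S.nrm m (c • v) = |c| * S.nrm m v := by
  unfold ExpSys.nrm
  simp only [map_smul, smul_apply, smul_eq_mul]
  rw [← mul_assoc, Real.sqrt_mul (mul_self_nonneg c), Real.sqrt_mul_self_eq_abs]

theorem continuous_nrm (m : M) : Continuous fun v => S.nrm m v := by
  unfold ExpSys.nrm
  continuity

/-- the exponential map and its inverse as lifts -/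
theorem exists_lgex (q : E) : ∃ F : E ≃ₜ E, F q = 0 ∧ (∀ x, S.e (S.e p q) (F x) = S.e p x) := by
  obtain ⟨F, ⟨hF1, hF2⟩, -⟩ := (S.cov (S.e p q)).existsUnique_continuousMap_lifts
    (⟨S.e p, (S.cov p).continuous⟩ : C(E, M)) q 0 (S.zero _)
  obtain ⟨F', ⟨hF1', hF2'⟩, -⟩ := (S.cov p).existsUnique_continuousMap_lifts
    (⟨S.e (S.e p q), (S.cov (S.e p q)).continuous⟩ : C(E, M)) 0 q (S.zero _).symm
  have hF2a : ∀ x, S.e (S.e p q) (F x) = S.e p x := fun x => congrFun hF2 x
  have hF2a' : ∀ x, S.e p (F' x) = S.e (S.e p q) x := fun x => congrFun hF2' x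
  have h1 : (fun x => F' (F x)) = fun x => x :=
    (S.cov p).eq_of_comp_eq (F'.continuous.comp F.continuous) continuous_id
      (funext fun x => by
        change S.e p (F' (F x)) = S.e p x
        rw [hF2a', hF2a]) q (by
        change F' (F q) = q
        rw [hF1, hF1'])
  have h2 : (fun x => F (F' x)) = fun x => x :=
    (S.cov (S.e p q)).eq_of_comp_eq (F.continuous.comp F'.continuous) continuous_id
      (funext fun x => by
        change S.e (S.e p q) (F (F' x)) = S.e (S.e p q) x
        rw [hF2a, hF2a']) 0 (by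
        change F (F' 0) = 0
        rw [hF1', hF1])
  exact ⟨{ toFun := F
           invFun := F'
           left_inv := fun x => congrFun h1 x
           right_inv := fun x => congrFun h2 x
           continuous_toFun := F.continuous
           continuous_invFun := F'.continuous }, hF1, hF2a⟩

/-- the inverse of the exponential map of the cover at `q` -/
def lg (q : E) : E ≃ₜ E := (exists_lgex S p q).choose

/-- the exponential map of the cover at `q` -/
def ex (q : E) : E ≃ₜ E := (lg S p q).symm

theorem lg_self (q : E) : lg S p q q = 0 := (exists_lgex S p q).choose_spec.1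

theorem e_lg (q x : E) : S.e (S.e p q) (lg S p q x) = S.e p x :=
  (exists_lgex S p q).choose_spec.2 x

@[simp] theorem lg_ex (q v : E) : lg S p q (ex S p q v) = v := (lg S p q).apply_symm_apply v

@[simp] theorem ex_lg (q x : E) : ex S p q (lg S p q x) = x := (lg S p q).symm_apply_apply x

theorem ex_zero (q : E) : ex S p q 0 = q := by
  rw [← lg_self S p q, ex_lg]

theorem e_ex (q v : E) : S.e p (ex S p q v) = S.e (S.e p q) v := by
  rw [← e_lg, lg_ex]

theorem continuous_lg (q : E) : Continuous (lg S p q) := (lg S p q).continuous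

theorem continuous_ex (q : E) : Continuous (ex S p q) := (ex S p q).continuous

/-- uniqueness of the lift -/
theorem eq_lg {A : Type} [TopologicalSpace A] [PreconnectedSpace A] (q : E) {F : A → E} {G : A → E}
    (hF : Continuous F) (hG : Continuous G) (h : ∀ a, S.e (S.e p q) (F a) = S.e p (G a)) {a₀ : A}
    (h0 : F a₀ = lg S p q (G a₀)) (a : A) : F a = lg S p q (G a) := by
  have h1 := (S.cov (S.e p q)).eq_of_comp_eq hF ((continuous_lg S p q).comp hG)
    (funext fun a => by
      change S.e (S.e p q) (F a) = S.e (S.e p q) (lg S p q (G a))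
      rw [h, e_lg]) a₀ h0
  exact congrFun h1 a

/-- uniqueness of the lift -/
theorem eq_ex {A : Type} [TopologicalSpace A] [PreconnectedSpace A] (q : E) {F : A → E} {G : A → E}
    (hF : Continuous F) (hG : Continuous G) (h : ∀ a, S.e p (F a) = S.e (S.e p q) (G a)) {a₀ : A}
    (h0 : F a₀ = ex S p q (G a₀)) (a : A) : F a = ex S p q (G a) := by
  have h1 := (S.cov p).eq_of_comp_eq hF ((continuous_ex S p q).comp hG)
    (funext fun a => by
      change S.e p (F a) = S.e p (ex S p q (G a))
      rw [h, e_ex]) a₀ h0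
  exact congrFun h1 a

/-! ### the deck group -/

theorem lg_smul (g : Deck (S.e p)) (q x : E) : lg S p (g • q) (g • x) = lg S p q x := by
  refine eq_lg S p q (F := fun x : E => lg S p (g • q) (g • x)) (G := fun x => x)
    ((continuous_lg S p _).comp (Deck.continuous_smul g)) continuous_id ?_ (a₀ := q) ?_ x
  · intro y
    have h1 := e_lg S p (g • q) (g • y)
    rw [Deck.e_smul (e := S.e p) g q, Deck.e_smul (e := S.e p) g y] at h1
    exact h1
  · change lg S p (g • q) (g • q) = lg S p q q
    rw [lg_self, lg_self]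

theorem ex_smul (g : Deck (S.e p)) (q v : E) : ex S p (g • q) v = g • ex S p q v := by
  have h1 := lg_smul S p g q (ex S p q v)
  rw [lg_ex] at h1
  have h2 := ex_lg S p (g • q) (g • ex S p q v)
  rw [h1] at h2
  exact h2

/-! ### homotopy classes -/

/-- the homotopy class of the image of the paths from `q` to `x` -/
def cl (q x : E) : Path.Homotopic.Quotient (S.e p q) (S.e p x) :=
  (Path.Homotopic.Quotient.mk (PathConnectedSpace.somePath q x)).map
    ⟨S.e p, (S.cov p).continuous⟩

theorem cl_eq {q x : E} (γ : Path q x) :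
    cl S p q x = (Path.Homotopic.Quotient.mk γ).map ⟨S.e p, (S.cov p).continuous⟩ := by
  unfold cl
  congr 1
  exact Path.Homotopic.Quotient.eq.2 (SimplyConnectedSpace.paths_homotopic _ _)

theorem cl_self (q : E) : cl S p q q = Path.Homotopic.Quotient.refl _ := by
  rw [cl_eq S p (Path.refl q), ← Path.Homotopic.Quotient.mk_map]
  rfl

theorem cl_symm (q x : E) : (cl S p q x).symm = cl S p x q := by
  rw [cl_eq S p (PathConnectedSpace.somePath q x),
    cl_eq S p (PathConnectedSpace.somePath q x).symm, ← Path.Homotopic.Quotient.mk_map,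
    ← Path.Homotopic.Quotient.mk_map, ← Path.Homotopic.Quotient.mk_symm]
  rfl

theorem cl_trans (q x y : E) : (cl S p q x).trans (cl S p x y) = cl S p q y := by
  rw [cl_eq S p (PathConnectedSpace.somePath q x), cl_eq S p (PathConnectedSpace.somePath x y),
    cl_eq S p ((PathConnectedSpace.somePath q x).trans (PathConnectedSpace.somePath x y)),
    ← Path.Homotopic.Quotient.mk_map, ← Path.Homotopic.Quotient.mk_map,
    ← Path.Homotopic.Quotient.mk_map, ← Path.Homotopic.Quotient.mk_trans, Path.map_trans]

/-- the class of the two sides of a triangle is the class of the third side -/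
theorem cl_symm_trans (q x y : E) : (cl S p q x).symm.trans (cl S p q y) = cl S p x y := by
  rw [cl_symm, cl_trans]

theorem vec_cl (q x : E) : S.vec (cl S p q x) = lg S p q x := by
  set γ := PathConnectedSpace.somePath q x with hγ
  rw [cl_eq S p γ, ← Path.Homotopic.Quotient.mk_map]
  have h1 := S.vec_mk (γ.map (S.cov p).continuous)
    ⟨fun t : I => lg S p q (γ t), (continuous_lg S p q).comp γ.continuous⟩
    (by simp [lg_self]) (fun t => e_lg S p q (γ t))
  refine h1.trans ?_
  simp

/-- the class of the segment of a geodesic -/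
theorem cl_ex (q v : E) : cl S p q (ex S p q v) = Path.Homotopic.Quotient.mk
    (S.rayTo (S.e p q) (S.e p (ex S p q v)) v (e_ex S p q v).symm) := by
  apply S.vec_inj
  rw [vec_cl, S.vec_rayTo, lg_ex]

/-! ### the distance -/

/-- the distance of the cover -/
def dd (q x : E) : ℝ := S.nrm (S.e p q) (lg S p q x)

theorem dd_eq_len (q x : E) : dd S p q x = S.len (cl S p q x) := by
  rw [ExpSys.len, vec_cl, dd]

theorem dd_nonneg (q x : E) : 0 ≤ dd S p q x := S.nrm_nonneg _ _

theorem dd_self (q : E) : dd S p q q = 0 := by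
  rw [dd, lg_self, S.nrm_zero]

theorem dd_comm (q x : E) : dd S p q x = dd S p x q := by
  rw [dd_eq_len, dd_eq_len, ← cl_symm S p q x, S.len_symm]

theorem dd_triangle (q x y : E) : dd S p q y ≤ dd S p q x + dd S p x y := by
  rw [dd_eq_len, dd_eq_len, dd_eq_len, ← cl_trans S p q x y]
  exact S.len_trans _ _

theorem eq_of_dd {q x : E} (h : dd S p q x = 0) : q = x := by
  have h1 : lg S p q x = 0 := S.eq_zero_of_nrm h
  rw [← ex_lg S p q x, h1, ex_zero]

theorem dd_smul (g : Deck (S.e p)) (q x : E) : dd S p (g • q) (g • x) = dd S p q x := by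
  rw [dd, lg_smul, Deck.e_smul (e := S.e p) g q, dd]

theorem dd_ex (q v : E) : dd S p q (ex S p q v) = S.nrm (S.e p q) v := by
  rw [dd, lg_ex]

/-- the comparison of nonpositive curvature -/
theorem nrm_lg_sub_le (q x y : E) :
    S.nrm (S.e p q) (lg S p q y - lg S p q x) ≤ dd S p x y := by
  have h1 := S.compare' (cl S p q x) (cl S p x y)
  rw [cl_trans, vec_cl, vec_cl, ← dd_eq_len] at h1
  exact h1

/-- geodesics: change of the base point -/
theorem ex_shift (q v : E) (s : ℝ) : ∃ w, S.ip (S.e p (ex S p q (s • v))) w w =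
    S.ip (S.e p q) v v ∧ ∀ t : ℝ, ex S p q ((s + t) • v) = ex S p (ex S p q (s • v)) (t • w) := by
  obtain ⟨w, hw1, hw2⟩ := S.shift (S.e p q) v s
  rw [← e_ex S p q] at hw1 hw2
  refine ⟨w, hw1, fun t => ?_⟩
  refine eq_ex S p (ex S p q (s • v)) (F := fun t : ℝ => ex S p q ((s + t) • v))
    (G := fun t : ℝ => t • w) ?_ ?_ ?_ (a₀ := 0) ?_ t
  · exact (continuous_ex S p q).comp (by fun_prop)
  · fun_prop
  · intro t
    rw [← hw2, e_ex]
  · change ex S p q ((s + 0) • v) = ex S p (ex S p q (s • v)) ((0 : ℝ) • w)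
    rw [add_zero, zero_smul, ex_zero]

theorem dd_ex_ex (q v : E) (s t : ℝ) : dd S p (ex S p q (s • v)) (ex S p q (t • v)) =
    |t - s| * S.nrm (S.e p q) v := by
  obtain ⟨w, hw1, hw2⟩ := ex_shift S p q v s
  have h1 := hw2 (t - s)
  rw [show s + (t - s) = t by ring] at h1
  rw [h1, dd_ex, nrm_smul, ExpSys.nrm, hw1, ExpSys.nrm]

/-! ### topology -/

theorem continuous_dd_right (q : E) : Continuous fun x => dd S p q x :=
  (continuous_nrm S _).comp (continuous_lg S p q)

theorem tendsto_dd_self (q : E) : Tendsto (fun x => dd S p q x) (𝓝 q) (𝓝 0) := by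
  have h := (continuous_dd_right S p q).tendsto q
  rw [dd_self] at h
  exact h

theorem continuous_dd : Continuous fun z : E × E => dd S p z.1 z.2 := by
  rw [continuous_iff_continuousAt]
  rintro ⟨q, x⟩
  rw [ContinuousAt, tendsto_iff_dist_tendsto_zero]
  have h1 : Tendsto (fun z : E × E => dd S p q z.1 + dd S p x z.2) (𝓝 (q, x)) (𝓝 0) := by
    have ha := (tendsto_dd_self S p q).comp (continuous_fst.tendsto (q, x))
    have hb := (tendsto_dd_self S p x).comp (continuous_snd.tendsto (q, x))
    have hc := ha.add hb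
    rw [add_zero] at hc
    exact hc
  refine squeeze_zero (fun _ => dist_nonneg) (fun z => ?_) h1
  rw [Real.dist_eq, abs_sub_le_iff]
  constructor
  · have e1 := dd_triangle S p z.1 q z.2
    have e2 := dd_triangle S p q x z.2
    rw [dd_comm S p z.1 q] at e1
    linarith
  · have e1 := dd_triangle S p q z.1 x
    have e2 := dd_triangle S p z.1 z.2 x
    rw [dd_comm S p z.2 x] at e2
    linarith

variable [FiniteDimensional ℝ E]

theorem isCompact_nrm_le (m : M) (R : ℝ) : IsCompact {v : E | S.nrm m v ≤ R} := by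
  rcases lt_or_ge R 0 with hR | hR
  · have : {v : E | S.nrm m v ≤ R} = ∅ := by
      ext v
      simp only [mem_ofPred_eq, mem_empty_iff_false, iff_false, not_le]
      exact hR.trans_le (S.nrm_nonneg m v)
    rw [this]
    exact isCompact_empty
  · have h := P255.isCompact_form (S.ip m) (S.ip_pos m) (R ^ 2)
    have h2 : {v : E | S.nrm m v ≤ R} = {v : E | S.ip m v v ≤ R ^ 2} := by
      ext v
      simp only [mem_ofPred_eq, ExpSys.nrm]
      exact Real.sqrt_le_left hR
    rw [h2]
    exact h

theorem isCompact_dd_le (q : E) (R : ℝ) : IsCompact {x | dd S p q x ≤ R} := by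
  have h1 : {x | dd S p q x ≤ R} = ex S p q '' {v | S.nrm (S.e p q) v ≤ R} := by
    ext x
    constructor
    · intro hx
      exact ⟨lg S p q x, hx, ex_lg S p q x⟩
    · rintro ⟨v, hv, rfl⟩
      change dd S p q (ex S p q v) ≤ R
      rw [dd_ex]
      exact hv
  rw [h1]
  exact (isCompact_nrm_le S _ R).image (continuous_ex S p q)

/-- small balls of the distance are small -/
theorem exists_ball_subset (q : E) {U : Set E} (hU : U ∈ 𝓝 q) :
    ∃ ε > 0, ∀ x, dd S p q x < ε → x ∈ U := by
  by_contra hcon
  push Not at hcon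
  choose x hx hxU using fun n : ℕ => hcon (1 / ((n : ℝ) + 1)) (by positivity)
  have hK := isCompact_dd_le S p q 1
  have hxK : ∀ n, x n ∈ {x | dd S p q x ≤ 1} := fun n => by
    have h1 : (1 : ℝ) / ((n : ℝ) + 1) ≤ 1 := by
      rw [div_le_one (by positivity)]
      have : (0 : ℝ) ≤ n := Nat.cast_nonneg n
      linarith
    exact (hx n).le.trans h1
  obtain ⟨y, -, φ, hφ, hy⟩ := hK.tendsto_subseq hxK
  have h1 : Tendsto (fun n => dd S p q (x (φ n))) atTop (𝓝 (dd S p q y)) :=
    ((continuous_dd_right S p q).tendsto y).comp hy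
  have h2 : Tendsto (fun n => dd S p q (x (φ n))) atTop (𝓝 0) := by
    refine squeeze_zero (fun n => dd_nonneg S p _ _) (fun n => (hx (φ n)).le) ?_
    exact (tendsto_one_div_add_atTop_nhds_zero_nat (𝕜 := ℝ)).comp hφ.tendsto_atTop
  have h3 : dd S p q y = 0 := tendsto_nhds_unique h1 h2
  have h4 := eq_of_dd S p h3
  subst h4
  obtain ⟨n, hn⟩ := (hy.eventually hU).exists
  exact hxU _ hn

end Basic

end Vale.Agent.P207.N3.H465
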