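import Vale.Agent.P207.N3.H465.XMet
import Vale.Agent.P207.N3.H566.ExpD
import Vale.Agent.P207.N3.H863.Lip

/-!
# P207, line N3, R2: local Lipschitz sections of `Fr g` and of `X`

* `lipSec_frSys : LipSec (frSys g).dif`.
* `lipSec_difX : LipSec (difX g ((sys g h).e p))` for the metric of `Xt g h p`.
* `exists_local_norm_le_dd`: `‖q - q'‖ ≤ C * dd q q'` and conversely, near a point.
-/

open scoped Manifold ContDiff ENNReal Topology NNReal
open Bundle MeasureTheory Set Filter Topology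

noncomputable section

set_option maxSynthPendingDepth 3
set_option linter.unusedSectionVars false

namespace Vale.Agent.P207.N3.H465

open Vale.Agent.P207.Q Vale.Agent.P207.Q.Fl
open Vale.Agent.P207.N3.H566 Vale.Agent.P207.N3.H863
open Vale.Agent.P255 (RMetric coefIn Gam Riem IsGeo Metric Npc ExpSys toMetric geo expg cc trans
  IsGeodesic coefL chris chrisB IsMetricOn covD)

variable {n : ℕ} {M : Type} [TopologicalSpace M] [ChartedSpace (EV n) M]
  [IsManifold 𝓘(ℝ, EV n) ∞ M] [CompactSpace M] [T2Space M]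

section Fr

variable [NeZero n] (g : RMetric (EV n) M) [Nonempty (Fr g)]

/-- the frame bundle has Lipschitz local sections -/
theorem lipSec_frSys : LipSec (frSys g).dif := by
  intro f
  have hf : f.pt ∈ (chartAt (EV n) f.pt).source := mem_chart_source _ _
  obtain ⟨C, -, hC⟩ := exists_chart_bound f.pt hf
  refine ⟨St (Fin n) n, inferInstance, inferInstance, inferInstance, fun q => chF f.pt q.1,
    fun z => invF g f.pt (gsSt ((mt g).coef f.pt) z), ⟨at_retr f.pt (mem_gsDom_chF f.pt f hf), ?_⟩,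
    C, hC⟩
  filter_upwards [((chartAt (EV n) f.pt).open_source.preimage Fr.continuous_pt).mem_nhds hf]
    with q hq
  exact ⟨continuousAt_chF' f.pt hq, retr_chF f.pt q hq⟩

end Fr

section X

variable [NeZero n] {g : RMetric (EV n) M} [Nonempty (Fr g)] (h : Npc (mt g)) (p : M)

open Classical in
/-- the local section of `X` over a local section `σ` of the covering -/
def secY (e : EV n → M) (σ : M → EV n) (x₀ : PB e (Fr.pt (g := g))) (y : St (Fin n) n) :
    PB e (Fr.pt (g := g)) :=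
  if hy : e (σ (invF g x₀.f.pt (gsSt ((mt g).coef x₀.f.pt) y)).pt) =
      (invF g x₀.f.pt (gsSt ((mt g).coef x₀.f.pt) y)).pt then PB.mk _ _ hy else x₀

/-- `X` has Lipschitz local sections -/
theorem lipSec_difX : LipSec (difX g ((sys g h).e p)) := by
  intro x₀
  set a : M := x₀.f.pt with ha
  have ha0 : x₀.f.pt ∈ (chartAt (EV n) a).source := mem_chart_source _ _
  obtain ⟨C, hC0, hC⟩ := exists_chart_bound (g := g) a ha0
  have cov : IsCoveringMap ((sys g h).e p) := (sys g h).cov p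
  obtain ⟨φ, hφ, hφe⟩ := cov.isLocalHomeomorph x₀.q
  have hφe' : ∀ x, φ x = (sys g h).e p x := fun x => (congrFun hφe x).symm
  -- the point over `a`
  have hpt : φ x₀.q = x₀.f.pt := (hφe' _).trans x₀.e_q
  have hat : x₀.f.pt ∈ φ.target := by
    rw [← hpt]
    exact φ.map_source hφ
  let R : St (Fin n) n → Fr g := fun z => invF g a (gsSt ((mt g).coef a) z)
  have hR : (frSys g).dif.At R (chF a x₀.f.1) := at_retr a (mem_gsDom_chF a x₀.f ha0)
  have hRc : ∀ᶠ z in 𝓝 (chF a x₀.f.1), ContinuousAt R z := by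
    filter_upwards [(frSys g).dif.open' hR] with z hz
    exact (frSys g).at_cont hz
  have hR0 : R (chF a x₀.f.1) = x₀.f := retr_chF a x₀.f ha0
  have hev : ∀ᶠ z in 𝓝 (chF a x₀.f.1), (R z).pt ∈ φ.target := by
    have h1 : ContinuousAt (fun z => (R z).pt) (chF a x₀.f.1) :=
      ContinuousAt.comp (g := fun f : Fr g => f.pt) Fr.continuous_pt.continuousAt
        hRc.self_of_nhds
    have h2 : (R (chF a x₀.f.1)).pt = x₀.f.pt := congrArg (fun f : Fr g => f.pt) hR0
    have h3 : (R (chF a x₀.f.1)).pt ∈ φ.target := by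
      rw [h2]
      exact hat
    exact h1.eventually (φ.open_target.mem_nhds h3)
  have hsec : ∀ z, (R z).pt ∈ φ.target → (sys g h).e p (φ.symm (R z).pt) = (R z).pt :=
    fun z hz => by rw [← hφe', φ.right_inv hz]
  have hsecY : ∀ z, (hz : (R z).pt ∈ φ.target) →
      secY ((sys g h).e p) φ.symm x₀ z = PB.mk (φ.symm (R z).pt) (R z) (hsec z hz) :=
    fun z hz => dif_pos (hsec z hz)
  refine ⟨St (Fin n) n, inferInstance, inferInstance, inferInstance, fun x => chF a x.f.1,
    secY ((sys g h).e p) φ.symm x₀, ⟨?_, ?_⟩, C, ?_⟩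
  · refine difX_of (locDif_e h p) ?_ ?_
    · filter_upwards [hev.eventually_nhds, hRc] with z hz hzc
      have h1 : ContinuousAt (fun z => φ.symm (R z).pt) z := by
        refine ContinuousAt.comp (g := φ.symm) (φ.continuousAt_symm hz.self_of_nhds) ?_
        exact ContinuousAt.comp (g := fun f : Fr g => f.pt) Fr.continuous_pt.continuousAt hzc
      refine h1.congr ?_
      filter_upwards [hz] with w hw
      rw [hsecY w hw]
      rfl
    · refine (frSys g).dif.congr hR ?_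
      filter_upwards [hev] with z hz
      rw [hsecY z hz]
      rfl
  · have h1 : ∀ᶠ x : XF g ((sys g h).e p) in 𝓝 x₀, x.f.pt ∈ (chartAt (EV n) a).source :=
      (Fr.continuous_pt.comp PB.continuous_f).continuousAt.eventually
        ((chartAt (EV n) a).open_source.mem_nhds ha0)
    have h2 : ∀ᶠ x : XF g ((sys g h).e p) in 𝓝 x₀, x.q ∈ φ.source :=
      PB.continuous_q.continuousAt.eventually (φ.open_source.mem_nhds hφ)
    filter_upwards [h1, h2] with x hx hxs
    refine ⟨?_, ?_⟩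
    · exact ContinuousAt.comp (g := fun f : Fr g => chF a f.1) (f := fun x : XF g _ => x.f)
        (continuousAt_chF' a hx) PB.continuous_f.continuousAt
    · have hRx : R (chF a x.f.1) = x.f := retr_chF a x.f hx
      have hxpt : x.f.pt = φ x.q := (x.e_q.symm).trans (hφe' _).symm
      have hxt : (R (chF a x.f.1)).pt ∈ φ.target := by
        rw [hRx, hxpt]
        exact φ.map_source hxs
      rw [hsecY _ hxt]
      refine PB.ext ?_ hRx
      rw [PB.q_mk, hRx, hxpt]
      exact φ.left_inv hxs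
  · have h1 : Tendsto (fun z : XF g ((sys g h).e p) × XF g ((sys g h).e p) => (z.1.f, z.2.f))
        (𝓝 (x₀, x₀)) (𝓝 (x₀.f, x₀.f)) :=
      ((PB.continuous_f.comp continuous_fst).prodMk
        (PB.continuous_f.comp continuous_snd)).continuousAt
    filter_upwards [h1.eventually hC] with z hz
    exact hz.trans (mul_le_mul_of_nonneg_left (PB.dist_f_le z.1 z.2) hC0.le)

/-- the norm of `EV n` and the distance are locally comparable -/
theorem exists_local_norm_le_dd (q₀ : EV n) : ∃ C : ℝ, 0 < C ∧ ∀ᶠ z in 𝓝 (q₀, q₀),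
    ‖z.1 - z.2‖ ≤ C * dd (sys g h) p z.1 z.2 ∧ dd (sys g h) p z.1 z.2 ≤ C * ‖z.1 - z.2‖ := by
  obtain ⟨C₁, hC₁, H₁⟩ := exists_norm_le_dd h p
  obtain ⟨C₂, hC₂, H₂⟩ := exists_local_dd_le h p q₀
  set m₀ := expg (mt g) p q₀ with hm₀
  have hs : expg (mt g) p q₀ ∈ (chartAt (EV n) m₀).source := mem_chart_source _ _
  obtain ⟨L, hL⟩ := (locDif_expg h p).inv m₀ q₀ hs
  have hst : HasStrictFDerivAt (fun z => chartAt (EV n) m₀ (expg (mt g) p z))
      (L : EV n →L[ℝ] EV n) q₀ :=
    ((locDif_expg h p).smooth m₀ q₀ hs).hasStrictFDerivAt' hL (by simp)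
  have hu0 : chartAt (EV n) m₀ (expg (mt g) p q₀) ∈ (chartAt (EV n) m₀).target :=
    (chartAt (EV n) m₀).map_source hs
  have hst2 : HasStrictFDerivAt ((chEmb n M).c m₀)
      (fderiv ℝ ((chEmb n M).c m₀) (chartAt (EV n) m₀ (expg (mt g) p q₀)))
      ((fun z => chartAt (EV n) m₀ (expg (mt g) p z)) q₀) :=
    ((chEmb n M).contDiffAt_c hu0).hasStrictFDerivAt (by simp)
  have hst3 := hst2.comp q₀ hst
  have hinj : Function.Injective ((fderiv ℝ ((chEmb n M).c m₀)
      (chartAt (EV n) m₀ (expg (mt g) p q₀))).comp (L : EV n →L[ℝ] EV n)) :=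
    ((chEmb n M).imm m₀ _ hu0).comp L.injective
  obtain ⟨K₁, hK₁, h1⟩ := exists_lip hst3
  obtain ⟨K₂, hK₂, h2⟩ := exists_antilip hst3 hinj
  have hev : ∀ᶠ z in 𝓝 q₀, (chEmb n M).c m₀ (chartAt (EV n) m₀ (expg (mt g) p z)) =
      emM (n := n) (expg (mt g) p z) := by
    filter_upwards [(P255.continuous_expg (mt g) p).continuousAt.eventually
      ((chartAt (EV n) m₀).open_source.mem_nhds hs)] with z hz
    exact (chEmb n M).c_chart m₀ hz
  have hev2 : ∀ᶠ z in 𝓝 (q₀, q₀), (chEmb n M).c m₀ (chartAt (EV n) m₀ (expg (mt g) p z.1)) =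
      emM (n := n) (expg (mt g) p z.1) ∧
      (chEmb n M).c m₀ (chartAt (EV n) m₀ (expg (mt g) p z.2)) =
      emM (n := n) (expg (mt g) p z.2) := by
    rw [nhds_prod_eq]
    exact hev.prod_mk hev
  refine ⟨max (K₂ * C₁) (C₂ * K₁), lt_max_of_lt_left (by positivity), ?_⟩
  filter_upwards [h1, h2, H₂, hev2] with z a1 a2 a3 a4
  have b1 : ‖(chEmb n M).c m₀ (chartAt (EV n) m₀ (expg (mt g) p z.1)) -
      (chEmb n M).c m₀ (chartAt (EV n) m₀ (expg (mt g) p z.2))‖ ≤ K₁ * ‖z.1 - z.2‖ := a1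
  have b2 : ‖z.1 - z.2‖ ≤ K₂ * ‖(chEmb n M).c m₀ (chartAt (EV n) m₀ (expg (mt g) p z.1)) -
      (chEmb n M).c m₀ (chartAt (EV n) m₀ (expg (mt g) p z.2))‖ := a2
  rw [a4.1, a4.2] at b1 b2
  constructor
  · calc ‖z.1 - z.2‖ ≤ K₂ * ‖emM (n := n) (expg (mt g) p z.1) - emM (expg (mt g) p z.2)‖ := b2
      _ ≤ K₂ * (C₁ * dd (sys g h) p z.1 z.2) :=
        mul_le_mul_of_nonneg_left (H₁ _ _) hK₂.le
      _ = K₂ * C₁ * dd (sys g h) p z.1 z.2 := by ring
      _ ≤ _ := mul_le_mul_of_nonneg_right (le_max_left _ _) (dd_nonneg _ _ _ _)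
  · calc dd (sys g h) p z.1 z.2
        ≤ C₂ * ‖emM (n := n) (expg (mt g) p z.1) - emM (expg (mt g) p z.2)‖ := a3
      _ ≤ C₂ * (K₁ * ‖z.1 - z.2‖) := mul_le_mul_of_nonneg_left b1 hC₂.le
      _ = C₂ * K₁ * ‖z.1 - z.2‖ := by ring
      _ ≤ _ := mul_le_mul_of_nonneg_right (le_max_right _ _) (norm_nonneg _)

/-- the norm of `EV n` and the distance are comparable on compact sets -/
theorem exists_norm_le_dd_of_isCompact {K : Set (EV n)} (hK : IsCompact K) :
    ∃ C : ℝ, 0 < C ∧ ∀ q ∈ K, ∀ q' ∈ K, ‖q - q'‖ ≤ C * dd (sys g h) p q q' := by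
  let F : Mt (sys g h) p → EV n := ofMt (sys g h) p
  have hK' : IsCompact (F ⁻¹' K) := hK
  obtain ⟨C, hC, H⟩ := H863.lip_of_local hK' (F := F) fun q _ => by
    obtain ⟨C, hC, H⟩ := exists_local_norm_le_dd h p (ofMt (sys g h) p q)
    refine ⟨C, ?_⟩
    have h1 : Tendsto (fun z : Mt (sys g h) p × Mt (sys g h) p => (F z.1, F z.2))
        (𝓝 (q, q)) (𝓝 (F q, F q)) :=
      ((continuous_ofMt (sys g h) p).comp continuous_fst).prodMk
        ((continuous_ofMt (sys g h) p).comp continuous_snd) |>.continuousAt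
    filter_upwards [h1.eventually H] with z hz
    exact hz.1
  refine ⟨C + 1, by positivity, fun q hq q' hq' => ?_⟩
  have h1 : ‖q - q'‖ ≤ C * dd (sys g h) p q q' := H q hq q' hq'
  have h2 := dd_nonneg (sys g h) p q q'
  rw [add_mul]
  linarith

/-- on compact sets `x ↦ x.q` is Lipschitz for the norm of `EV n` -/
theorem Xt.exists_norm_q_le {K : Set (Xt g h p)} (hK : IsCompact K) :
    ∃ C : ℝ, 0 < C ∧ ∀ x ∈ K, ∀ y ∈ K, ‖x.q - y.q‖ ≤ C * dist x y := by
  obtain ⟨C, hC, H⟩ := exists_norm_le_dd_of_isCompact h p (hK.image PB.continuous_q)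
  refine ⟨C, hC, fun x hx y hy => ?_⟩
  exact (H _ (mem_image_of_mem _ hx) _ (mem_image_of_mem _ hy)).trans
    (mul_le_mul_of_nonneg_left (PB.dd_le x y) hC.le)

end X

end Vale.Agent.P207.N3.H465
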