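import Vale.Agent.P207.N3.H465.Emb

/-!
# P207, line N3, R2: the metric of the frame bundle

* `instance : MetricSpace (Fr g)`: induced by the embedding `frE`, topology definitionally that
  of `Fr g`.
* `SmF.exists_lip`: smooth functions are Lipschitz.
* `exists_chart_bound`, `exists_chart_bound'`: the charts are locally bi-Lipschitz.
* `IsFlow.exists_dist_le`: `dist (Ψ t p) (Ψ t q) ≤ exp (K * |t|) * dist p q`.
* `exists_dist_flow_le`: `dist (Ψ t p) (Ψ s p) ≤ C * |t - s|`.
* `exists_dist_rot_le`: `dist (rot A p) (rot A q) ≤ C * dist p q`.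
-/

open scoped Manifold ContDiff ENNReal Topology NNReal
open Bundle MeasureTheory Set Filter Topology

noncomputable section

set_option maxSynthPendingDepth 3
set_option linter.unusedSectionVars false

namespace Vale.Agent.P207.N3.H465

open Vale.Agent.P207.Q
open Vale.Agent.P255 (RMetric coefIn Gam Riem IsGeo Metric Npc ExpSys toMetric geo expg cc trans
  IsGeodesic coefL chris chrisB IsMetricOn covD)

variable {n : ℕ} {M : Type} [TopologicalSpace M] [ChartedSpace (EV n) M]
  [IsManifold 𝓘(ℝ, EV n) ∞ M] [CompactSpace M] [T2Space M]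

/-- the chosen embedding of `M` -/
def chEmb (n : ℕ) (M : Type) [TopologicalSpace M] [ChartedSpace (EV n) M]
    [IsManifold 𝓘(ℝ, EV n) ∞ M] [CompactSpace M] [T2Space M] : ChEmb n M :=
  Classical.choice exists_chEmb

variable {g : RMetric (EV n) M}

/-- the space of the embedding of the frames -/
abbrev VE (n : ℕ) (M : Type) [TopologicalSpace M] [ChartedSpace (EV n) M]
    [IsManifold 𝓘(ℝ, EV n) ∞ M] [CompactSpace M] [T2Space M] : Type :=
  EV (chEmb n M).N × (Fin n → EV (chEmb n M).N)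

/-- the embedding of the frames -/
def frE (f : Fr g) : VE n M := (chEmb n M).fE f.1

theorem frE_injective : Function.Injective (frE (g := g)) :=
  (chEmb n M).fE_injective.comp Subtype.val_injective

theorem continuous_frE [NeZero n] : Continuous (frE (g := g)) :=
  (chEmb n M).continuous_fE.comp Fr.continuous_val

theorem isEmbedding_frE [NeZero n] : IsEmbedding (frE (g := g)) := by
  have h1 : Continuous (frE (g := g)) := continuous_frE
  exact (h1.isClosedEmbedding frE_injective).isEmbedding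

/-- the metric of the frame bundle -/
instance instMetricSpaceFr [NeZero n] : MetricSpace (Fr g) :=
  isEmbedding_frE.comapMetricSpace frE

theorem dist_fr [NeZero n] (p q : Fr g) : dist p q = ‖frE p - frE q‖ := by
  rw [← dist_eq_norm]
  rfl

theorem frE_eq (a : M) {p : Fr g} (hp : p.pt ∈ (chartAt (EV n) a).source) :
    frE p = (chEmb n M).fc a (chF a p.1) := (chEmb n M).fE_eq a hp

theorem rd_frE {a : M} {y : St (Fin n) n} (hy : y ∈ dom g a) :
    rd (frE (g := g)) a y = (chEmb n M).fc a (gsSt ((mt g).coef a) y) := by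
  rw [rd_of_mem _ hy]
  exact (chEmb n M).fE_chFs a (y := gsSt ((mt g).coef a) y) hy.1

/-- the embedding is smooth -/
theorem smF_frE : SmF (frE (g := g)) := by
  refine SmF.congr_rd (F := fun a y => (chEmb n M).fc a (gsSt ((mt g).coef a) y))
    (fun a y hy => rd_frE hy) fun a y hy => ?_
  have h1 : ContDiffAt ℝ ∞ (gsSt ((mt g).coef a)) y := contDiffAt_gsSt ((mt g).isMetricOn a) hy
  have h2 : ContDiffAt ℝ ∞ ((chEmb n M).fc a) (gsSt ((mt g).coef a) y) :=
    (chEmb n M).contDiffAt_fc (gsSt_mem_dom a hy).1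
  exact (h2.comp y h1).contDiffWithinAt

theorem continuousAt_chF' [NeZero n] (a : M) {p : Fr g}
    (hp : p.pt ∈ (chartAt (EV n) a).source) : ContinuousAt (fun q : Fr g => chF a q.1) p :=
  ContinuousAt.comp (g := chF a) (continuousAt_chF a (f := p.1) hp)
    Fr.continuous_val.continuousAt

theorem eventually_source [NeZero n] (a : M) {p : Fr g}
    (hp : p.pt ∈ (chartAt (EV n) a).source) :
    ∀ᶠ z in 𝓝 (p, p), z.1.pt ∈ (chartAt (EV n) a).source ∧
      z.2.pt ∈ (chartAt (EV n) a).source := by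
  have h0 : ∀ᶠ q : Fr g in 𝓝 p, q.pt ∈ (chartAt (EV n) a).source :=
    Fr.continuous_pt.continuousAt.preimage_mem_nhds ((chartAt (EV n) a).open_source.mem_nhds hp)
  rw [nhds_prod_eq]
  exact h0.prod_mk h0

theorem tendsto_chF' [NeZero n] (a : M) {p : Fr g}
    (hp : p.pt ∈ (chartAt (EV n) a).source) :
    Tendsto (fun z : Fr g × Fr g => (chF a z.1.1, chF a z.2.1)) (𝓝 (p, p))
      (𝓝 (chF a p.1, chF a p.1)) := by
  have h := continuousAt_chF' a hp
  rw [nhds_prod_eq, nhds_prod_eq]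
  exact h.tendsto.prodMap h.tendsto

/-- the charts are locally Lipschitz -/
theorem exists_chart_bound [NeZero n] (a : M) {p : Fr g}
    (hp : p.pt ∈ (chartAt (EV n) a).source) :
    ∃ C : ℝ, 0 < C ∧ ∀ᶠ z : Fr g × Fr g in 𝓝 (p, p),
      ‖chF a z.1.1 - chF a z.2.1‖ ≤ C * dist z.1 z.2 := by
  have hy : (chF a p.1).1 ∈ (chartAt (EV n) a).target := (chartAt (EV n) a).map_source hp
  obtain ⟨C, hC, h⟩ := exists_antilip
    (((chEmb n M).contDiffAt_fc hy).hasStrictFDerivAt (by simp))
    ((chEmb n M).injective_fderiv_fc hy)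
  refine ⟨C, hC, ?_⟩
  filter_upwards [(tendsto_chF' a hp).eventually h, eventually_source a hp] with z hz hs
  rw [dist_fr, frE_eq a hs.1, frE_eq a hs.2]
  exact hz

/-- the inverse charts are locally Lipschitz -/
theorem exists_chart_bound' [NeZero n] (a : M) {p : Fr g}
    (hp : p.pt ∈ (chartAt (EV n) a).source) :
    ∃ C : ℝ, 0 < C ∧ ∀ᶠ z : Fr g × Fr g in 𝓝 (p, p),
      dist z.1 z.2 ≤ C * ‖chF a z.1.1 - chF a z.2.1‖ := by
  have hy : (chF a p.1).1 ∈ (chartAt (EV n) a).target := (chartAt (EV n) a).map_source hp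
  obtain ⟨C, hC, h⟩ := exists_lip
    (((chEmb n M).contDiffAt_fc hy).hasStrictFDerivAt (by simp))
  refine ⟨C, hC, ?_⟩
  filter_upwards [(tendsto_chF' a hp).eventually h, eventually_source a hp] with z hz hs
  rw [dist_fr, frE_eq a hs.1, frE_eq a hs.2]
  exact hz

/-! ### functions -/

section Fun

variable {V : Type} [NormedAddCommGroup V] [NormedSpace ℝ V] [NeZero n]

/-- a locally Lipschitz map on a compact metric space is Lipschitz -/
theorem exists_lip_of_local {A B : Type} [MetricSpace A] [CompactSpace A] [MetricSpace B]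
    {f : A → B} (h : ∀ x, ∃ C : ℝ, ∀ᶠ z : A × A in 𝓝 (x, x),
      dist (f z.1) (f z.2) ≤ C * dist z.1 z.2) :
    ∃ C : ℝ, 0 < C ∧ ∀ x y, dist (f x) (f y) ≤ C * dist x y := by
  have h1 : LocallyLipschitzOn univ f := by
    intro x _
    obtain ⟨C, hC⟩ := h x
    rw [nhds_prod_eq] at hC
    obtain ⟨t, ht, hC⟩ := (Filter.eventually_prod_self_iff
      (r := fun y z => dist (f y) (f z) ≤ C * dist y z)).1 hC
    refine ⟨C.toNNReal, t, mem_nhdsWithin_of_mem_nhds ht, ?_⟩
    refine LipschitzOnWith.of_dist_le_mul fun y hy z hz => ?_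
    refine (hC y hy z hz).trans ?_
    exact mul_le_mul_of_nonneg_right (Real.le_coe_toNNReal C) dist_nonneg
  obtain ⟨K, hK⟩ := h1.exists_lipschitzOnWith_of_compact isCompact_univ
  refine ⟨K + 1, by positivity, fun x y => ?_⟩
  refine (hK.dist_le_mul x (mem_univ _) y (mem_univ _)).trans ?_
  exact mul_le_mul_of_nonneg_right (by simp) dist_nonneg

/-- smooth functions are Lipschitz -/
theorem _root_.Vale.Agent.P207.Q.SmF.exists_lip {f : Fr g → V} (hf : SmF f) :
    ∃ C : ℝ, 0 < C ∧ ∀ p q, ‖f p - f q‖ ≤ C * dist p q := by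
  have h := exists_lip_of_local (f := f) fun p => by
    have hp : p.pt ∈ (chartAt (EV n) p.pt).source := mem_chart_source _ _
    obtain ⟨C, hC, h1⟩ := exists_chart_bound p.pt hp
    obtain ⟨C', hC', h2⟩ := H465.exists_lip
      ((hf.contDiffAt (chF_mem_dom hp)).hasStrictFDerivAt (by simp))
    refine ⟨C' * C, ?_⟩
    filter_upwards [h1, (tendsto_chF' p.pt hp).eventually h2, eventually_source p.pt hp]
      with z hz1 hz2 hs
    rw [dist_eq_norm]
    have hz3 : ‖rd f p.pt (chF p.pt z.1.1) - rd f p.pt (chF p.pt z.2.1)‖ ≤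
        C' * ‖chF p.pt z.1.1 - chF p.pt z.2.1‖ := hz2
    rw [rd_chF f hs.1, rd_chF f hs.2] at hz3
    calc ‖f z.1 - f z.2‖ ≤ C' * ‖chF p.pt z.1.1 - chF p.pt z.2.1‖ := hz3
      _ ≤ C' * (C * dist z.1 z.2) := mul_le_mul_of_nonneg_left hz1 hC'.le
      _ = _ := by ring
  obtain ⟨C, hC, h⟩ := h
  exact ⟨C, hC, fun p q => by rw [← dist_eq_norm]; exact h p q⟩

/-- flows of smooth fields are Lipschitz -/
theorem _root_.Vale.Agent.P207.Q.IsFlow.exists_dist_le {Z : ChField g} {Ψ : ℝ → Fr g → Fr g}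
    (h : IsFlow Z Ψ) : ∃ K : ℝ, 0 < K ∧ ∀ t p q,
      dist (Ψ t p) (Ψ t q) ≤ Real.exp (K * |t|) * dist p q := by
  obtain ⟨K, hK, hK'⟩ := (h.smF_dZ smF_frE).exists_lip
  refine ⟨K, hK, fun t p q => ?_⟩
  -- one sign at a time
  have key : ∀ σ : ℝ, |σ| = 1 → ∀ t : ℝ, 0 ≤ t →
      dist (Ψ (σ * t) p) (Ψ (σ * t) q) ≤ Real.exp (K * t) * dist p q := by
    intro σ hσ t ht
    have hd : ∀ (r : Fr g) (s : ℝ), HasDerivAt (fun s => frE (Ψ (σ * s) r))
        (σ • dZ Z frE (Ψ (σ * s) r)) s := fun r s => by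
      have h1 := h.hasDerivAt smF_frE r (σ * s)
      have h2 : HasDerivAt (fun s : ℝ => σ * s) σ s := by
        simpa using (hasDerivAt_id s).const_mul σ
      exact HasDerivAt.scomp s h1 h2
    have h1 := norm_le_gronwallBound_of_norm_deriv_right_le
      (f := fun s => frE (Ψ (σ * s) p) - frE (Ψ (σ * s) q))
      (f' := fun s => σ • dZ Z frE (Ψ (σ * s) p) - σ • dZ Z frE (Ψ (σ * s) q))
      (δ := dist p q) (K := K) (ε := 0) (a := 0) (b := t)
      (fun s _ => (((hd p s).sub (hd q s)).continuousAt).continuousWithinAt)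
      (fun s _ => ((hd p s).sub (hd q s)).hasDerivWithinAt) ?_ ?_ t ⟨ht, le_rfl⟩
    · rw [gronwallBound_ε0, sub_zero] at h1
      rw [dist_fr, mul_comm (Real.exp _)]
      exact h1
    · rw [mul_zero, h.zero, h.zero, dist_fr]
    · intro s _
      rw [← smul_sub, norm_smul, Real.norm_eq_abs, hσ, one_mul, add_zero, ← dist_fr]
      exact hK' _ _
  rcases le_total 0 t with ht | ht
  · have h1 := key 1 (by simp) t ht
    rw [one_mul] at h1
    rw [abs_of_nonneg ht]
    exact h1
  · have h1 := key (-1) (by simp) (-t) (by linarith)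
    rw [neg_mul_neg, one_mul] at h1
    rw [abs_of_nonpos ht]
    exact h1

/-- speed of the flow of a smooth field -/
theorem exists_dist_flow_le {Z : ChField g} {Ψ : ℝ → Fr g → Fr g}
    (h : IsFlow Z Ψ) : ∃ C : ℝ, 0 < C ∧ ∀ t s p, dist (Ψ t p) (Ψ s p) ≤ C * |t - s| := by
  have hc : Continuous (dZ Z (frE (g := g))) := (h.smF_dZ smF_frE).continuous
  obtain ⟨C, hC⟩ := (isCompact_range hc).isBounded.exists_norm_le
  refine ⟨|C| + 1, by positivity, fun t s p => ?_⟩
  rw [dist_fr, ← Real.norm_eq_abs (t - s)]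
  refine Convex.norm_image_sub_le_of_norm_hasDerivWithin_le (s := univ)
    (fun r _ => (h.hasDerivAt smF_frE p r).hasDerivWithinAt) (fun r _ => ?_) convex_univ
    (mem_univ _) (mem_univ _)
  exact (hC _ (mem_range_self _)).trans ((le_abs_self C).trans (by linarith))

/-- rotations are uniformly Lipschitz -/
theorem exists_dist_rot_le : ∃ C : ℝ, 0 < C ∧ ∀ (A : Fr.On n) (p q : Fr g),
    dist (Fr.rot A p) (Fr.rot A q) ≤ C * dist p q := by
  obtain ⟨B, hB⟩ : ∃ B : ℝ, ∀ (A : Fr.On n) (i j : Fin n), |A.1 i j| ≤ B := by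
    refine ⟨1, fun A i j => ?_⟩
    have h1 := A.2
    rw [Matrix.mem_orthogonalGroup_iff] at h1
    have h2 := congrFun (congrFun h1 i) i
    rw [Matrix.mul_apply, Matrix.one_apply_eq] at h2
    have h4 : ∑ k, A.1 i k * A.1 i k = 1 := h2
    have h3 : A.1 i j * A.1 i j ≤ 1 := by
      rw [← h4]
      exact Finset.single_le_sum (f := fun j => A.1 i j * A.1 i j)
        (fun k _ => mul_self_nonneg _) (Finset.mem_univ j)
    rw [abs_le]
    constructor <;> nlinarith
  have hB0 : 0 ≤ B := (abs_nonneg _).trans (hB 1 0 0)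
  refine ⟨n * B + 1, by positivity, fun A p q => ?_⟩
  have hC1 : ∀ v : ℝ, 0 ≤ v → n * B * v ≤ (n * B + 1) * v := fun v hv => by nlinarith
  have hrot : ∀ (p : Fr g) (j : Fin n), (frE (Fr.rot A p)).2 j = ∑ i, A.1 i j • (frE p).2 i := by
    intro p j
    change fderiv ℝ ((chEmb n M).c p.pt) (chartAt (EV n) p.pt p.pt) ((Fr.rot A p).e j) = _
    rw [Fr.rot_e, map_sum]
    simp only [map_smul]
    rfl
  have hrot1 : ∀ (p : Fr g), (frE (Fr.rot A p)).1 = (frE p).1 := fun p => rfl
  rw [dist_fr, dist_fr, Prod.norm_def]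
  refine max_le ?_ ?_
  · rw [Prod.fst_sub, hrot1, hrot1, ← Prod.fst_sub]
    refine (norm_fst_le _).trans ?_
    have : 0 ≤ ‖frE p - frE q‖ := norm_nonneg _
    nlinarith [mul_nonneg (mul_nonneg (Nat.cast_nonneg (α := ℝ) n) hB0) this]
  · rw [pi_norm_le_iff_of_nonneg (by positivity)]
    intro j
    rw [Prod.snd_sub, Pi.sub_apply, hrot, hrot, ← Finset.sum_sub_distrib]
    refine (norm_sum_le _ _).trans ?_
    refine le_trans ?_ (hC1 _ (norm_nonneg _))
    have h1 : ∀ i ∈ (Finset.univ : Finset (Fin n)),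
        ‖A.1 i j • (frE p).2 i - A.1 i j • (frE q).2 i‖ ≤ B * ‖frE p - frE q‖ := by
      intro i _
      rw [← smul_sub, norm_smul, Real.norm_eq_abs]
      refine mul_le_mul (hB A i j) ?_ (norm_nonneg _) hB0
      refine le_trans ?_ (norm_snd_le _)
      exact norm_le_pi_norm (frE p - frE q).2 i
    refine (Finset.sum_le_sum h1).trans (le_of_eq ?_)
    rw [Finset.sum_const, Finset.card_univ, Fintype.card_fin, nsmul_eq_mul]
    ring

end Fun

end Vale.Agent.P207.N3.H465
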