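import Vale.Agent.P207.N3.H465.FrMet
import Vale.Agent.P207.N3.H465.Mt

/-!
# P207, line N3, R2: the distance of the universal cover and the embedding of `M`

`dd` is the distance of the cover of `M` by `expg (mt g) p`; `emM : M → EV N` is the embedding.
* `exists_norm_le_dd`: `‖emM (e q) - emM (e q')‖ ≤ C * dd q q'` for all `q, q'`.
* `exists_dd_le_norm`: `dd q q' ≤ C * ‖emM (e q) - emM (e q')‖` if `dd q q' < r`.
-/

open scoped Manifold ContDiff ENNReal Topology NNReal
open Bundle MeasureTheory Set Filter Topology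

noncomputable section

set_option maxSynthPendingDepth 3
set_option linter.unusedSectionVars false

namespace Vale.Agent.P207.N3.H465

open Vale.Agent.P207.Q
open Vale.Agent.P255 (RMetric coefIn Gam Riem IsGeo Metric Npc ExpSys toMetric geo expg cc trans
  IsGeodesic coefL chris chrisB IsMetricOn covD)

variable {n : ℕ} {M : Type} [TopologicalSpace M] [ChartedSpace (EV n) M]
  [IsManifold 𝓘(ℝ, EV n) ∞ M] [CompactSpace M] [T2Space M]

/-- the embedding of `M` -/
def emM (m : M) : EV (chEmb n M).N := (chEmb n M).io m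

/-- its derivative, in the chart at the point -/
def emD (m : M) : EV n →L[ℝ] EV (chEmb n M).N :=
  fderiv ℝ ((chEmb n M).c m) (chartAt (EV n) m m)

theorem injective_emD (m : M) : Function.Injective (emD (n := n) m) :=
  (chEmb n M).imm m _ (mem_chart_target _ _)

/-- the norm of the metric -/
def nm (g : RMetric (EV n) M) (m : M) (v : EV n) : ℝ := Real.sqrt ((mt g).ip m v v)

variable (g : RMetric (EV n) M)

theorem ip_pos (m : M) {v : EV n} (hv : v ≠ 0) : 0 < (mt g).ip m v v := by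
  rw [ip_eq g m v v]
  exact g.pos m v hv

theorem nm_nonneg (m : M) (v : EV n) : 0 ≤ nm g m v := Real.sqrt_nonneg _

theorem nm_pos (m : M) {v : EV n} (hv : v ≠ 0) : 0 < nm g m v := Real.sqrt_pos.2 (ip_pos g m hv)

theorem nm_sq (m : M) (v : EV n) : nm g m v ^ 2 = (mt g).ip m v v := by
  refine Real.sq_sqrt ?_
  rcases eq_or_ne v 0 with rfl | hv
  · simp
  · exact (ip_pos g m hv).le

theorem nm_smul (m : M) (c : ℝ) (v : EV n) : nm g m (c • v) = |c| * nm g m v := by
  unfold nm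
  simp only [map_smul, smul_apply, smul_eq_mul]
  rw [← mul_assoc, Real.sqrt_mul (mul_self_nonneg c), Real.sqrt_mul_self_eq_abs]

theorem continuous_emD_ut : Continuous fun u : UT g => emD (n := n) u.pt u.vec := by
  have h1 : Continuous fun u : UT g => (⟨u.pt, fun _ => u.vec⟩ : LF Unit n M) := by
    rw [isInducing_vec.continuous_iff]
    exact continuous_pi fun _ => continuous_subtype_val
  have h2 := ((chEmb n M).continuous_fE (ι := Unit)).comp h1
  exact (continuous_apply ()).comp (continuous_snd.comp h2)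

/-- the two norms on the tangent spaces are uniformly equivalent -/
theorem exists_nm_bound : ∃ C : ℝ, 0 < C ∧ ∀ (m : M) (v : EV n),
    ‖emD m v‖ ≤ C * nm g m v ∧ nm g m v ≤ C * ‖emD m v‖ := by
  have : CompactSpace (UT g) := compactSpace_UT g
  have hc := continuous_emD_ut g
  have hne : ∀ u : UT g, ‖emD (n := n) u.pt u.vec‖ ≠ 0 := fun u h => by
    rw [norm_eq_zero] at h
    have h1 : (u.vec : EV n) = 0 :=
      injective_emD (n := n) u.pt (h.trans (map_zero (emD u.pt)).symm)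
    have h2 : (g.inner u.pt u.vec u.vec : ℝ) = 1 := u.2
    rw [show u.vec = 0 from h1] at h2
    simp at h2
  obtain ⟨C₁, hC₁⟩ := (isCompact_range hc).isBounded.exists_norm_le
  obtain ⟨C₂, hC₂⟩ := (isCompact_range (hc.norm.inv₀ hne)).isBounded.exists_norm_le
  refine ⟨max (max C₁ C₂) 1, lt_of_lt_of_le one_pos (le_max_right _ _), fun m v => ?_⟩
  rcases eq_or_ne v 0 with rfl | hv
  · simp [nm]
  have hn := nm_pos g m hv
  have hu : (mt g).ip m ((nm g m v)⁻¹ • v) ((nm g m v)⁻¹ • v) = 1 := by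
    rw [← nm_sq, nm_smul, abs_of_pos (inv_pos.2 hn), inv_mul_cancel₀ hn.ne', one_pow]
  have h1 : ‖emD (n := n) (mkUT g m _ hu).pt (mkUT g m _ hu).vec‖ ≤ C₁ :=
    hC₁ _ (mem_range_self (mkUT g m _ hu))
  have h2 : ‖‖emD (n := n) (mkUT g m _ hu).pt (mkUT g m _ hu).vec‖⁻¹‖ ≤ C₂ :=
    hC₂ _ (mem_range_self (mkUT g m _ hu))
  have h3 : emD (n := n) (mkUT g m _ hu).pt (mkUT g m _ hu).vec =
      (nm g m v)⁻¹ • emD m v := (emD m).map_smul _ _
  rw [h3, norm_smul, norm_inv, Real.norm_of_nonneg hn.le] at h1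
  rw [h3, norm_smul, norm_inv, norm_mul, norm_norm, norm_norm, mul_inv, norm_inv, inv_inv,
    Real.norm_of_nonneg hn.le] at h2
  have h4 : 0 < ‖emD m v‖ := norm_pos_iff.2 fun h => hv (injective_emD m (by rw [h, map_zero]))
  constructor
  · rw [inv_mul_le_iff₀ hn, mul_comm] at h1
    exact h1.trans (mul_le_mul_of_nonneg_right ((le_max_left _ _).trans (le_max_left _ _)) hn.le)
  · rw [mul_inv_le_iff₀ h4] at h2
    exact h2.trans (mul_le_mul_of_nonneg_right ((le_max_right _ _).trans (le_max_left _ _)) h4.le)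

/-! ### the upper bound -/

theorem hasDerivAt_emM_geo (m : M) (v : EV n) (t : ℝ) :
    HasDerivAt (fun s => emM (n := n) (geo (mt g) m v s)) (emD (geo (mt g) m v t)
      (deriv (cc (geo (mt g) m v) (geo (mt g) m v t)) t)) t := by
  have hγ := P255.isGeodesic_geo (mt g) m v
  have ha : geo (mt g) m v t ∈ (chartAt (EV n) (geo (mt g) m v t)).source :=
    mem_chart_source _ _
  have h1 := (hγ.eqn (geo (mt g) m v t) t (mem_univ _) ha).1.hasDerivAt
  have hc : ContDiffAt ℝ ∞ ((chEmb n M).c (geo (mt g) m v t))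
      (cc (geo (mt g) m v) (geo (mt g) m v t) t) :=
    (chEmb n M).contDiffAt_c ((chartAt (EV n) _).map_source ha)
  have h2 := (hc.differentiableAt (by simp)).hasFDerivAt.comp_hasDerivAt t h1
  refine h2.congr_of_eventuallyEq ?_
  filter_upwards [P255.evSource' (hγ.continuousAt t) ha] with s hs
  exact ((chEmb n M).c_chart _ hs).symm

theorem exists_emM_le : ∃ C : ℝ, 0 < C ∧ ∀ (m : M) (v : EV n),
    ‖emM (n := n) (expg (mt g) m v) - emM m‖ ≤ C * nm g m v := by
  obtain ⟨C, hC, hC'⟩ := exists_nm_bound g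
  refine ⟨C, hC, fun m v => ?_⟩
  have hγ := P255.isGeodesic_geo (mt g) m v
  have hsp : ∀ t, (mt g).sp (geo (mt g) m v) t = (mt g).ip m v v := fun t => by
    rw [hγ.sp_const isOpen_univ isPreconnected_univ (mem_univ t) (mem_univ 0)]
    unfold P255.Metric.sp
    rw [P255.geo_zero, P255.deriv_geo]
  have h1 := Convex.norm_image_sub_le_of_norm_hasDerivWithin_le (s := univ) (C := C * nm g m v)
    (fun t _ => (hasDerivAt_emM_geo g m v t).hasDerivWithinAt) (fun t _ => ?_) convex_univ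
    (mem_univ (0 : ℝ)) (mem_univ 1)
  · rw [P255.geo_zero, sub_zero, norm_one, mul_one] at h1
    exact h1
  · refine (hC' _ _).1.trans (le_of_eq ?_)
    congr 1
    have h2 := hsp t
    unfold P255.Metric.sp at h2
    unfold nm
    rw [h2]

/-! ### the lower bound -/

theorem hasDerivAt_expg_zero (m : M) (v : EV n) :
    fderiv ℝ (fun w => chartAt (EV n) m (expg (mt g) m w)) 0 v = v := by
  have hE := P255.isExp_expg (mt g)
  have h0 : expg (mt g) m 0 = m := hE.zero m
  have h1 : HasFDerivAt (fun w => chartAt (EV n) m (expg (mt g) m w))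
      (fderiv ℝ (fun w => chartAt (EV n) m (expg (mt g) m w)) 0) ((0 : ℝ) • v) := by
    rw [zero_smul]
    exact ((P255.contDiffAt_expg (mt g) m 0 m (by rw [h0]; exact mem_chart_source _ _)
      ).differentiableAt (by simp)).hasFDerivAt
  have h2 : HasDerivAt (fun t : ℝ => t • v) v 0 := by
    simpa using (hasDerivAt_id (0 : ℝ)).smul_const v
  have h3 := h1.comp_hasDerivAt (0 : ℝ) h2
  exact h3.unique (hE.init m v)

theorem hasStrictFDerivAt_emM_expg (m : M) :
    HasStrictFDerivAt (fun v => emM (n := n) (expg (mt g) m v)) (emD m) 0 := by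
  have hE := P255.isExp_expg (mt g)
  have h0 : expg (mt g) m 0 = m := hE.zero m
  have hs : expg (mt g) m 0 ∈ (chartAt (EV n) m).source := by
    rw [h0]
    exact mem_chart_source _ _
  have h1 : HasStrictFDerivAt (fun w => chartAt (EV n) m (expg (mt g) m w))
      (ContinuousLinearMap.id ℝ (EV n)) 0 := by
    have h2 := (P255.contDiffAt_expg (mt g) m 0 m hs).hasStrictFDerivAt (by simp)
    have h3 : fderiv ℝ (fun w => chartAt (EV n) m (expg (mt g) m w)) 0 =
        ContinuousLinearMap.id ℝ (EV n) := ContinuousLinearMap.ext (hasDerivAt_expg_zero g m)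
    rwa [h3] at h2
  have h2 : HasStrictFDerivAt ((chEmb n M).c m) (emD m)
      ((fun w => chartAt (EV n) m (expg (mt g) m w)) 0) := by
    simp only [h0]
    exact ((chEmb n M).contDiffAt_c (mem_chart_target _ _)).hasStrictFDerivAt (by simp)
  have h3 := h2.comp 0 h1
  rw [ContinuousLinearMap.comp_id] at h3
  refine h3.congr_of_eventuallyEq ?_
  filter_upwards [(P255.continuous_expg (mt g) m).continuousAt.eventually
    ((chartAt (EV n) m).open_source.mem_nhds hs)] with v hv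
  exact (chEmb n M).c_chart m hv

/-- infinitesimal lower bound with a uniform constant -/
theorem exists_nm_le : ∃ C : ℝ, 0 < C ∧ ∀ m : M, ∀ᶠ v in 𝓝 (0 : EV n),
    nm g m v ≤ C * ‖emM (n := n) (expg (mt g) m v) - emM m‖ := by
  obtain ⟨C, hC, hC'⟩ := exists_nm_bound g
  refine ⟨2 * C, by positivity, fun m => ?_⟩
  have h0 : expg (mt g) m 0 = m := (P255.isExp_expg (mt g)).zero m
  have hd := (hasStrictFDerivAt_emM_expg g m).hasFDerivAt
  have hinj : LinearMap.ker (emD (n := n) m : EV n →ₗ[ℝ] EV (chEmb n M).N) = ⊥ :=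
    LinearMap.ker_eq_bot.2 (injective_emD (n := n) m)
  obtain ⟨K, hK0, hK⟩ := (emD (n := n) m :
    EV n →ₗ[ℝ] EV (chEmb n M).N).exists_antilipschitzWith hinj
  have hK0' : (0 : ℝ) < K := hK0
  have h1 := hd.isLittleO.def (c := (2 * C * (K * C))⁻¹) (by positivity)
  filter_upwards [h1] with v hv
  rw [h0, sub_zero] at hv
  have h2 : ‖v‖ ≤ K * ‖emD m v‖ := by
    have h3 := hK.le_mul_dist v 0
    rw [dist_zero_right, map_zero, dist_zero_right] at h3
    exact h3
  have h3 : ‖v‖ ≤ K * C * nm g m v := by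
    rw [mul_assoc]
    exact h2.trans (mul_le_mul_of_nonneg_left (hC' m v).1 hK0'.le)
  set F := emM (n := n) (expg (mt g) m v) - emM m with hF
  have h4 : ‖emD m v‖ ≤ ‖F‖ + ‖F - emD m v‖ := by
    have h5 : emD m v = F - (F - emD m v) := by abel
    calc ‖emD m v‖ = ‖F - (F - emD m v)‖ := by rw [← h5]
      _ ≤ _ := norm_sub_le _ _
  have h5 : C * ‖F - emD m v‖ ≤ nm g m v / 2 := by
    calc C * ‖F - emD m v‖ ≤ C * ((2 * C * (K * C))⁻¹ * (K * C * nm g m v)) := by
          refine mul_le_mul_of_nonneg_left (hv.trans ?_) hC.le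
          exact mul_le_mul_of_nonneg_left h3 (by positivity)
      _ = nm g m v / 2 := by
          field_simp
  have h6 := (hC' m v).2
  have h7 : C * ‖emD m v‖ ≤ C * ‖F‖ + C * ‖F - emD m v‖ := by
    rw [← mul_add]
    exact mul_le_mul_of_nonneg_left h4 hC.le
  linarith

/-! ### the cover -/

variable {g} (h : Npc (mt g)) (p : M)

theorem exists_norm_le_dd : ∃ C : ℝ, 0 < C ∧ ∀ q q' : EV n,
    ‖emM (n := n) (expg (mt g) p q) - emM (expg (mt g) p q')‖ ≤ C * dd (sys g h) p q q' := by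
  obtain ⟨C, hC, hC'⟩ := exists_emM_le g
  refine ⟨C, hC, fun q q' => ?_⟩
  have h1 := hC' ((sys g h).e p q) (lg (sys g h) p q q')
  have h2 : expg (mt g) ((sys g h).e p q) (lg (sys g h) p q q') = expg (mt g) p q' :=
    e_lg (sys g h) p q q'
  rw [h2] at h1
  rw [norm_sub_rev]
  exact h1

theorem exists_eventually_dd_le : ∃ C : ℝ, 0 < C ∧ ∀ q : EV n, ∀ᶠ x in 𝓝 q,
    dd (sys g h) p q x ≤ C * ‖emM (n := n) (expg (mt g) p q) - emM (expg (mt g) p x)‖ := by
  obtain ⟨C, hC, hC'⟩ := exists_nm_le g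
  refine ⟨C, hC, fun q => ?_⟩
  have h1 : Tendsto (lg (sys g h) p q) (𝓝 q) (𝓝 0) := by
    have h2 := (continuous_lg (sys g h) p q).tendsto q
    rwa [lg_self] at h2
  filter_upwards [h1.eventually (hC' ((sys g h).e p q))] with x hx
  have h2 : expg (mt g) ((sys g h).e p q) (lg (sys g h) p q x) = expg (mt g) p x :=
    e_lg (sys g h) p q x
  rw [h2] at hx
  rw [norm_sub_rev]
  exact hx

/-- a bound of the increments gives a bound of the function -/
theorem le_of_local_incr {f : ℝ → ℝ} (hf : ContinuousOn f (Icc 0 1)) {K : ℝ}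
    (h : ∀ t ∈ Ico (0 : ℝ) 1, ∀ᶠ s in 𝓝[>] t, f s - f t ≤ K * (s - t)) : f 1 ≤ f 0 + K := by
  have h1 := image_le_of_liminf_slope_right_le_deriv_boundary (f := f) hf
    (B := fun x => f 0 + K * x) (B' := fun _ => K) (by simp) (by fun_prop)
    (fun x _ => by
      have h2 : HasDerivAt (fun x : ℝ => f 0 + K * x) K x := by
        simpa using ((hasDerivAt_id x).const_mul K).const_add (f 0)
      exact h2.hasDerivWithinAt)
    (fun x hx r hr => by
      refine Eventually.frequently ?_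
      filter_upwards [h x hx, self_mem_nhdsWithin] with s hs hsx
      have hsx' : 0 < s - x := sub_pos.2 hsx
      rw [slope_def_field, div_lt_iff₀ hsx']
      exact hs.trans_lt (mul_lt_mul_of_pos_right hr hsx'))
    (right_mem_Icc.2 zero_le_one)
  simpa using h1

/-- the lower bound near a point -/
theorem exists_local_dd_le (q₀ : EV n) : ∃ C : ℝ, 0 < C ∧ ∀ᶠ z in 𝓝 (q₀, q₀),
    dd (sys g h) p z.1 z.2 ≤
      C * ‖emM (n := n) (expg (mt g) p z.1) - emM (expg (mt g) p z.2)‖ := by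
  obtain ⟨C, hC, hC'⟩ := exists_eventually_dd_le h p
  have cov : IsCoveringMap (expg (mt g) p) := (sys g h).cov p
  obtain ⟨φ, hφ, hφe⟩ := cov.isLocalHomeomorph q₀
  set m₀ := expg (mt g) p q₀ with hm₀
  set a : OpenPartialHomeomorph M (EV n) := chartAt (EV n) m₀ with ha
  have hφe' : ∀ x, φ x = expg (mt g) p x := fun x => (congrFun hφe x).symm
  let ψ := φ.trans a
  have hψ0 : q₀ ∈ ψ.source := by
    rw [OpenPartialHomeomorph.trans_source]
    refine ⟨hφ, ?_⟩
    change φ q₀ ∈ a.source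
    rw [hφe']
    exact mem_chart_source _ _
  have hψ : ∀ x, ψ x = a (expg (mt g) p x) := fun x => by
    change a (φ x) = _
    rw [hφe']
  have hψs : ∀ x ∈ ψ.source, expg (mt g) p x ∈ a.source := fun x hx => by
    rw [OpenPartialHomeomorph.trans_source] at hx
    have := hx.2
    change φ x ∈ a.source at this
    rwa [hφe'] at this
  have hem : ∀ x ∈ ψ.source, emM (n := n) (expg (mt g) p x) = (chEmb n M).c m₀ (ψ x) :=
    fun x hx => by
      rw [hψ]
      exact ((chEmb n M).c_chart m₀ (hψs x hx)).symm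
  -- bounds in the chart
  have hu0 : ψ q₀ ∈ (chartAt (EV n) m₀).target := by
    rw [hψ]
    exact a.map_source (hψs q₀ hψ0)
  have hst := ((chEmb n M).contDiffAt_c hu0).hasStrictFDerivAt (n := ∞) (by simp)
  obtain ⟨K₁, hK₁, hlip⟩ := exists_lip hst
  obtain ⟨K₂, hK₂, hanti⟩ := exists_antilip hst ((chEmb n M).imm m₀ _ hu0)
  -- a ball
  have htar : ψ.target ∈ 𝓝 (ψ q₀) := ψ.open_target.mem_nhds (ψ.map_source hψ0)
  have hev : ∀ᶠ z in 𝓝 (ψ q₀, ψ q₀), (z.1 ∈ ψ.target ∧
      ‖(chEmb n M).c m₀ z.1 - (chEmb n M).c m₀ z.2‖ ≤ K₁ * ‖z.1 - z.2‖) ∧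
      ‖z.1 - z.2‖ ≤ K₂ * ‖(chEmb n M).c m₀ z.1 - (chEmb n M).c m₀ z.2‖ := by
    refine (Filter.Eventually.and ?_ hlip).and hanti
    rw [nhds_prod_eq]
    exact Filter.Eventually.prod_inl (la := 𝓝 (ψ q₀)) htar (𝓝 (ψ q₀))
  rw [nhds_prod_eq] at hev
  obtain ⟨U, hU, hUU⟩ := (Filter.eventually_prod_self_iff (r := fun x y => (x ∈ ψ.target ∧
      ‖(chEmb n M).c m₀ x - (chEmb n M).c m₀ y‖ ≤ K₁ * ‖x - y‖) ∧
      ‖x - y‖ ≤ K₂ * ‖(chEmb n M).c m₀ x - (chEmb n M).c m₀ y‖)).1 hev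
  obtain ⟨r, hr, hrU⟩ := Metric.mem_nhds_iff.1 hU
  refine ⟨C * K₁ * K₂, by positivity, ?_⟩
  have hev2 : ∀ᶠ x in 𝓝 q₀, x ∈ ψ.source ∧ ψ x ∈ Metric.ball (ψ q₀) r :=
    Filter.Eventually.and (ψ.open_source.mem_nhds hψ0)
      ((ψ.continuousAt hψ0).eventually (Metric.ball_mem_nhds _ hr))
  have hev3 : ∀ᶠ z in 𝓝 (q₀, q₀), (z.1 ∈ ψ.source ∧ ψ z.1 ∈ Metric.ball (ψ q₀) r) ∧
      (z.2 ∈ ψ.source ∧ ψ z.2 ∈ Metric.ball (ψ q₀) r) := by
    rw [nhds_prod_eq]
    exact hev2.prod_mk hev2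
  filter_upwards [hev3] with z hz
  obtain ⟨⟨h1s, h1b⟩, h2s, h2b⟩ := hz
  set u := ψ z.1 with hu
  set u' := ψ z.2 with hu'
  -- the segment
  let c : ℝ → EV n := fun t => u + t • (u' - u)
  have hcb : ∀ t ∈ Icc (0 : ℝ) 1, c t ∈ Metric.ball (ψ q₀) r := fun t ht =>
    (convex_ball (ψ q₀) r).add_smul_sub_mem h1b h2b ht
  have hct : ∀ t ∈ Icc (0 : ℝ) 1, c t ∈ ψ.target := fun t ht =>
    (hUU _ (hrU (hcb t ht)) _ (hrU (hcb t ht))).1.1
  have hcc : Continuous c := by fun_prop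
  let w : ℝ → EV n := fun t => ψ.symm (c t)
  have hw : ContinuousOn w (Icc 0 1) :=
    ψ.continuousOn_symm.comp hcc.continuousOn fun t ht => hct t ht
  have hw0 : w 0 = z.1 := by
    change ψ.symm (u + (0 : ℝ) • (u' - u)) = z.1
    rw [zero_smul, add_zero]
    exact ψ.left_inv h1s
  have hw1 : w 1 = z.2 := by
    change ψ.symm (u + (1 : ℝ) • (u' - u)) = z.2
    rw [one_smul, add_sub_cancel]
    exact ψ.left_inv h2s
  have hws : ∀ t ∈ Icc (0 : ℝ) 1, w t ∈ ψ.source := fun t ht => ψ.map_target (hct t ht)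
  have hψw : ∀ t ∈ Icc (0 : ℝ) 1, ψ (w t) = c t := fun t ht => ψ.right_inv (hct t ht)
  have hf : ContinuousOn (fun t => dd (sys g h) p z.1 (w t)) (Icc 0 1) :=
    (continuous_dd_right (sys g h) p z.1).comp_continuousOn hw
  have hmain := le_of_local_incr (K := C * K₁ * ‖u' - u‖) hf (fun t ht => by
    have ht' : t ∈ Icc (0 : ℝ) 1 := ⟨ht.1, ht.2.le⟩
    have h1 : Tendsto w (𝓝[>] t) (𝓝 (w t)) := by
      have h2 : ContinuousWithinAt w (Icc 0 1) t := hw t ht'
      refine h2.tendsto.mono_left ?_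
      have h3 : Ioc t 1 ⊆ Icc (0 : ℝ) 1 := fun s hs => ⟨ht.1.trans hs.1.le, hs.2⟩
      refine le_trans ?_ (nhdsWithin_mono t h3)
      exact le_of_eq (nhdsWithin_Ioc_eq_nhdsGT ht.2).symm
    have h3 : ∀ᶠ s in 𝓝[>] t, s ∈ Ioc t 1 := by
      rw [← nhdsWithin_Ioc_eq_nhdsGT ht.2]
      exact self_mem_nhdsWithin
    filter_upwards [h1.eventually (hC' (w t)), h3] with s hs hst'
    have hs' : s ∈ Icc (0 : ℝ) 1 := ⟨ht.1.trans hst'.1.le, hst'.2⟩
    have e1 := dd_triangle (sys g h) p z.1 (w t) (w s)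
    have e2 : dd (sys g h) p (w t) (w s) ≤ C * (K₁ * ‖c t - c s‖) := by
      refine hs.trans (mul_le_mul_of_nonneg_left ?_ hC.le)
      rw [hem _ (hws t ht'), hem _ (hws s hs'), hψw t ht', hψw s hs']
      exact (hUU _ (hrU (hcb t ht')) _ (hrU (hcb s hs'))).1.2
    have e3 : ‖c t - c s‖ = (s - t) * ‖u' - u‖ := by
      have e4 : c t - c s = (t - s) • (u' - u) := by
        change u + t • (u' - u) - (u + s • (u' - u)) = _
        rw [sub_smul]
        abel
      rw [e4, norm_smul, Real.norm_eq_abs, abs_sub_comm, abs_of_pos (sub_pos.2 hst'.1)]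
    rw [e3] at e2
    have e5 : C * (K₁ * ((s - t) * ‖u' - u‖)) = C * K₁ * ‖u' - u‖ * (s - t) := by ring
    rw [e5] at e2
    linarith)
  simp only [hw0, hw1] at hmain
  rw [dd_self, zero_add] at hmain
  have h6 : ‖u' - u‖ ≤ K₂ * ‖(chEmb n M).c m₀ u - (chEmb n M).c m₀ u'‖ := by
    rw [norm_sub_rev]
    exact (hUU _ (hrU h1b) _ (hrU h2b)).2
  rw [hem _ h1s, hem _ h2s, ← hu, ← hu']
  calc dd (sys g h) p z.1 z.2 ≤ C * K₁ * ‖u' - u‖ := hmain
    _ ≤ C * K₁ * (K₂ * ‖(chEmb n M).c m₀ u - (chEmb n M).c m₀ u'‖) :=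
      mul_le_mul_of_nonneg_left h6 (by positivity)
    _ = _ := by ring

/-- the lower bound, uniformly -/
theorem exists_dd_le_norm [PreconnectedSpace M] : ∃ C r : ℝ, 0 < C ∧ 0 < r ∧
    ∀ q q' : EV n, dd (sys g h) p q q' < r → dd (sys g h) p q q' ≤
      C * ‖emM (n := n) (expg (mt g) p q) - emM (expg (mt g) p q')‖ := by
  have cov : IsCoveringMap ((sys g h).e p) := (sys g h).cov p
  obtain ⟨K, hK, hKg⟩ := Deck.exists_isCompact cov (Deck.surjective_of_cov cov)
  have key : ∃ C r : ℝ, 0 < C ∧ 0 < r ∧ ∀ x ∈ K, ∀ y, dd (sys g h) p x y < r →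
      dd (sys g h) p x y ≤
        C * ‖emM (n := n) (expg (mt g) p x) - emM (expg (mt g) p y)‖ := by
    refine hK.induction_on (p := fun s => ∃ C r : ℝ, 0 < C ∧ 0 < r ∧ ∀ x ∈ s, ∀ y,
      dd (sys g h) p x y < r → dd (sys g h) p x y ≤
        C * ‖emM (n := n) (expg (mt g) p x) - emM (expg (mt g) p y)‖) ?_ ?_ ?_ ?_
    · exact ⟨1, 1, one_pos, one_pos, fun x hx => absurd hx (notMem_empty x)⟩
    · rintro s t hst ⟨C, r, hC, hr, H⟩
      exact ⟨C, r, hC, hr, fun x hx => H x (hst hx)⟩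
    · rintro s t ⟨C, r, hC, hr, H⟩ ⟨C', r', hC', hr', H'⟩
      refine ⟨max C C', min r r', lt_max_of_lt_left hC, lt_min hr hr', ?_⟩
      rintro x (hx | hx) y hxy
      · exact (H x hx y (hxy.trans_le (min_le_left _ _))).trans
          (mul_le_mul_of_nonneg_right (le_max_left _ _) (norm_nonneg _))
      · exact (H' x hx y (hxy.trans_le (min_le_right _ _))).trans
          (mul_le_mul_of_nonneg_right (le_max_right _ _) (norm_nonneg _))
    · intro q₀ _
      obtain ⟨C, hC, hev⟩ := exists_local_dd_le h p q₀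
      rw [nhds_prod_eq] at hev
      obtain ⟨U, hU, hUU⟩ := (Filter.eventually_prod_self_iff (r := fun x y =>
        dd (sys g h) p x y ≤
          C * ‖emM (n := n) (expg (mt g) p x) - emM (expg (mt g) p y)‖)).1 hev
      obtain ⟨ε, hε, hεU⟩ := exists_ball_subset (sys g h) p q₀ hU
      refine ⟨{x | dd (sys g h) p q₀ x < ε / 2}, ?_, C, ε / 2, hC, by positivity, ?_⟩
      · refine mem_nhdsWithin_of_mem_nhds ?_
        exact (tendsto_dd_self (sys g h) p q₀).eventually (gt_mem_nhds (by positivity))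
      · intro x hx y hxy
        have hx' : dd (sys g h) p q₀ x < ε / 2 := hx
        refine hUU x (hεU x (by linarith)) y (hεU y ?_)
        have h1 := dd_triangle (sys g h) p q₀ x y
        linarith
  obtain ⟨C, r, hC, hr, H⟩ := key
  refine ⟨C, r, hC, hr, fun q q' hqq => ?_⟩
  obtain ⟨γ, hγ⟩ := hKg q
  have h1 := H (γ • q) hγ (γ • q') (by rw [dd_smul]; exact hqq)
  have e1 : expg (mt g) p (γ • q) = expg (mt g) p q := Deck.e_smul γ q
  have e2 : expg (mt g) p (γ • q') = expg (mt g) p q' := Deck.e_smul γ q'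
  rw [dd_smul, e1, e2] at h1
  exact h1

end Vale.Agent.P207.N3.H465
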