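import Vale.Agent.P207.Q.H916.Fr7

/-!
# P207, line N3, R2: the frame bundle embedded in a normed space; the metric of `Fr g`

* `ChEmb n M`: an embedding of the compact manifold `M` in `EV N`, in charts (Whitney).
* `W.fE : LF ι n M → EV N × (ι → EV N)`: the induced embedding of the frames.
* `MetricSpace (Fr g)`: the induced metric; smooth functions are Lipschitz, flows of smooth
  fields satisfy `dist (Ψ t p) (Ψ t q) ≤ exp (K |t|) dist p q`, the charts are locally
  bi-Lipschitz.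
-/

open scoped Manifold ContDiff ENNReal Topology NNReal
open Bundle MeasureTheory Set Filter Topology

noncomputable section

set_option maxSynthPendingDepth 3
set_option linter.unusedSectionVars false

namespace Vale.Agent.P207.N3.H465

open Vale.Agent.P207.Q
open Vale.Agent.P255 (RMetric coefIn Gam Riem IsGeo Metric Npc ExpSys toMetric geo expg cc trans
  IsGeodesic coefL chris chrisB IsMetricOn covD)

/-! ### local lower bounds -/

section Local

variable {E F : Type} [NormedAddCommGroup E] [NormedSpace ℝ E] [NormedAddCommGroup F]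
  [NormedSpace ℝ F]

/-- a map with injective strict derivative is locally anti-Lipschitz -/
theorem exists_antilip [FiniteDimensional ℝ E] {f : E → F} {f' : E →L[ℝ] F} {x : E}
    (h : HasStrictFDerivAt f f' x) (hinj : Function.Injective f') :
    ∃ C : ℝ, 0 < C ∧ ∀ᶠ p in 𝓝 (x, x), ‖p.1 - p.2‖ ≤ C * ‖f p.1 - f p.2‖ := by
  obtain ⟨K, hK0, hK⟩ := (f' : E →ₗ[ℝ] F).exists_antilipschitzWith
    (LinearMap.ker_eq_bot.2 hinj)
  have hK0' : (0 : ℝ) < K := hK0
  refine ⟨2 * K, by positivity, ?_⟩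
  have h1 := h.isLittleO.def (c := (2 * (K : ℝ))⁻¹) (by positivity)
  filter_upwards [h1] with p hp
  have h2 : ‖p.1 - p.2‖ ≤ K * ‖f' (p.1 - p.2)‖ := by
    have h3 := hK.le_mul_dist (p.1 - p.2) 0
    rw [dist_zero_right, map_zero, dist_zero_right] at h3
    exact h3
  have h3 : ‖f' (p.1 - p.2)‖ ≤ ‖f p.1 - f p.2‖ + ‖f p.1 - f p.2 - f' (p.1 - p.2)‖ := by
    have h4 : f' (p.1 - p.2) = (f p.1 - f p.2) - (f p.1 - f p.2 - f' (p.1 - p.2)) := by abel
    calc ‖f' (p.1 - p.2)‖ = ‖(f p.1 - f p.2) - (f p.1 - f p.2 - f' (p.1 - p.2))‖ := by rw [← h4]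
      _ ≤ _ := norm_sub_le _ _
  have h4 : (K : ℝ) * ((2 * (K : ℝ))⁻¹ * ‖p.1 - p.2‖) = ‖p.1 - p.2‖ / 2 := by
    field_simp
  have h5 : ‖p.1 - p.2‖ ≤ K * ‖f p.1 - f p.2‖ + ‖p.1 - p.2‖ / 2 := by
    calc ‖p.1 - p.2‖ ≤ K * ‖f' (p.1 - p.2)‖ := h2
      _ ≤ K * (‖f p.1 - f p.2‖ + (2 * (K : ℝ))⁻¹ * ‖p.1 - p.2‖) :=
        mul_le_mul_of_nonneg_left (h3.trans (by linarith)) hK0'.le
      _ = _ := by rw [mul_add, h4]
  linarith

/-- a map with a strict derivative is locally Lipschitz -/
theorem exists_lip {f : E → F} {f' : E →L[ℝ] F} {x : E} (h : HasStrictFDerivAt f f' x) :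
    ∃ C : ℝ, 0 < C ∧ ∀ᶠ p in 𝓝 (x, x), ‖f p.1 - f p.2‖ ≤ C * ‖p.1 - p.2‖ := by
  refine ⟨‖f'‖ + 1, by positivity, ?_⟩
  have h1 := h.isLittleO.def (c := (1 : ℝ)) one_pos
  filter_upwards [h1] with p hp
  have h4 : f p.1 - f p.2 = f' (p.1 - p.2) + (f p.1 - f p.2 - f' (p.1 - p.2)) := by abel
  calc ‖f p.1 - f p.2‖ = ‖f' (p.1 - p.2) + (f p.1 - f p.2 - f' (p.1 - p.2))‖ := by rw [← h4]
    _ ≤ ‖f' (p.1 - p.2)‖ + ‖f p.1 - f p.2 - f' (p.1 - p.2)‖ := norm_add_le _ _
    _ ≤ ‖f'‖ * ‖p.1 - p.2‖ + 1 * ‖p.1 - p.2‖ := add_le_add (f'.le_opNorm _) hp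
    _ = _ := by ring

end Local

/-! ### the embedding of the manifold -/

variable {n : ℕ} {M : Type} [TopologicalSpace M] [ChartedSpace (EV n) M]

/-- a smooth embedding of the manifold in a euclidean space, in charts -/
structure ChEmb (n : ℕ) (M : Type) [TopologicalSpace M] [ChartedSpace (EV n) M] where
  N : ℕ
  io : M → EV N
  cont : Continuous io
  inj : Function.Injective io
  smooth : ∀ a : M, ContDiffOn ℝ ∞ (fun u => io ((chartAt (EV n) a).symm u))
    (chartAt (EV n) a).target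
  imm : ∀ a : M, ∀ u ∈ (chartAt (EV n) a).target,
    Function.Injective (fderiv ℝ (fun u => io ((chartAt (EV n) a).symm u)) u)

/-- the Whitney embedding -/
theorem exists_chEmb [IsManifold 𝓘(ℝ, EV n) ∞ M] [CompactSpace M] [T2Space M] :
    Nonempty (ChEmb n M) := by
  obtain ⟨N, e, he1, he2, he3⟩ := exists_embedding_euclidean_of_compact (I := 𝓘(ℝ, EV n))
    (M := M)
  refine ⟨⟨N, e, he2.continuous, he2.injective, fun a => ?_, fun a u hu => ?_⟩⟩
  · rw [← contMDiffOn_iff_contDiffOn]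
    exact he1.comp_contMDiffOn (contMDiffOn_chart_symm (I := 𝓘(ℝ, EV n)) (n := ∞) (x := a))
  · have h1 := P255.mdifferentiableAt_chart_symm (E := EV n) a u hu
    have h2 : MDifferentiableAt 𝓘(ℝ, EV n) 𝓘(ℝ, EV N) e ((chartAt (EV n) a).symm u) :=
      he1.mdifferentiableAt (by simp)
    have h3 := mfderiv_comp u h2 h1
    have h4 : mfderiv 𝓘(ℝ, EV n) 𝓘(ℝ, EV N) (e ∘ (chartAt (EV n) a).symm) u =
        fderiv ℝ (fun u => e ((chartAt (EV n) a).symm u)) u := mfderiv_eq_fderiv
    rw [← h4, h3]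
    refine (he3 _).comp ?_
    -- the derivative of the inverse chart is injective
    have hp : (chartAt (EV n) a).symm u ∈ (chartAt (EV n) a).source :=
      (chartAt (EV n) a).map_target hu
    have h5 := P255.mdifferentiableAt_chart (E := EV n) a _ hp
    have h6 : ((chartAt (EV n) a) ∘ (chartAt (EV n) a).symm : EV n → EV n) =ᶠ[𝓝 u] id := by
      filter_upwards [(chartAt (EV n) a).open_target.mem_nhds hu] with q hq
      exact (chartAt (EV n) a).right_inv hq
    have h7 := mfderiv_comp u h5 h1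
    rw [h6.mfderiv_eq, mfderiv_id] at h7
    intro v w hvw
    have h8 := congrArg (fun L => L v) h7
    have h9 := congrArg (fun L => L w) h7
    have h10 := congrArg (mfderiv 𝓘(ℝ, EV n) 𝓘(ℝ, EV n) (chartAt (EV n) a)
      ((chartAt (EV n) a).symm u)) hvw
    exact h8.trans (h10.trans h9.symm)

namespace ChEmb

variable (W : ChEmb n M)

/-- the embedding in the chart at `a` -/
def c (a : M) (u : EV n) : EV W.N := W.io ((chartAt (EV n) a).symm u)

theorem contDiffAt_c {a : M} {u : EV n} (hu : u ∈ (chartAt (EV n) a).target) :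
    ContDiffAt ℝ ∞ (W.c a) u :=
  (W.smooth a).contDiffAt ((chartAt (EV n) a).open_target.mem_nhds hu)

theorem c_chart (a : M) {m : M} (hm : m ∈ (chartAt (EV n) a).source) :
    W.c a (chartAt (EV n) a m) = W.io m := by
  unfold c
  rw [(chartAt (EV n) a).left_inv hm]

variable [IsManifold 𝓘(ℝ, EV n) ∞ M]

/-- change of charts -/
theorem fderiv_c_trans (a b : M) {u : EV n} (hu : u ∈ (chartAt (EV n) a).target)
    (hb : (chartAt (EV n) a).symm u ∈ (chartAt (EV n) b).source) (w : EV n) :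
    fderiv ℝ (W.c b) (trans (EV n) a b u) (fderiv ℝ (trans (EV n) a b) u w) =
      fderiv ℝ (W.c a) u w := by
  have h1 := P255.contDiffAt_trans' (E := EV n) a b hu hb
  have hu' : trans (EV n) a b u ∈ (chartAt (EV n) b).target := (chartAt (EV n) b).map_source hb
  have h2 : W.c a =ᶠ[𝓝 u] W.c b ∘ trans (EV n) a b := by
    have h3 : ∀ᶠ p in 𝓝 u, (chartAt (EV n) a).symm p ∈ (chartAt (EV n) b).source :=
      ((chartAt (EV n) a).continuousAt_symm hu).eventually
        ((chartAt (EV n) b).open_source.mem_nhds hb)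
    filter_upwards [h3] with p hp
    change W.io _ = W.io ((chartAt (EV n) b).symm (chartAt (EV n) b ((chartAt (EV n) a).symm p)))
    rw [(chartAt (EV n) b).left_inv hp]
  rw [h2.fderiv_eq, fderiv_comp u ((W.contDiffAt_c hu').differentiableAt (by simp))
    (h1.differentiableAt (by simp))]
  rfl

/-! ### the embedding of the families of vectors -/

variable {ι : Type}

/-- the embedding of the families of tangent vectors -/
def fE (f : LF ι n M) : EV W.N × (ι → EV W.N) :=
  (W.io f.pt, fun i => fderiv ℝ (W.c f.pt) (chartAt (EV n) f.pt f.pt) (f.e i))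

/-- the embedding in the chart at `a` -/
def fc (a : M) (y : EV n × (ι → EV n)) : EV W.N × (ι → EV W.N) :=
  (W.c a y.1, fun i => fderiv ℝ (W.c a) y.1 (y.2 i))

theorem fE_chFs (a : M) {y : EV n × (ι → EV n)} (hy : y.1 ∈ (chartAt (EV n) a).target) :
    W.fE (chFs a y) = W.fc a y := by
  refine Prod.ext rfl ?_
  funext i
  exact W.fderiv_c_trans a ((chartAt (EV n) a).symm y.1) hy (mem_chart_source _ _) (y.2 i)

theorem fE_eq (a : M) {f : LF ι n M} (hf : f.pt ∈ (chartAt (EV n) a).source) :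
    W.fE f = W.fc a (chF a f) := by
  have h1 := W.fE_chFs a (y := chF a f) ((chartAt (EV n) a).map_source hf)
  rwa [chFs_chF a hf] at h1

theorem fE_injective : Function.Injective (W.fE (ι := ι)) := by
  intro f f' h
  obtain ⟨x, e⟩ := f
  obtain ⟨x', e'⟩ := f'
  have h1 : x = x' := W.inj (congrArg Prod.fst h)
  subst h1
  congr 1
  funext i
  have h2 := congrFun (congrArg Prod.snd h) i
  exact W.imm x _ (mem_chart_target _ _) h2

variable [Fintype ι]

theorem contDiffAt_fc {a : M} {y : EV n × (ι → EV n)} (hy : y.1 ∈ (chartAt (EV n) a).target) :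
    ContDiffAt ℝ ∞ (W.fc a) y := by
  have h1 : ContDiffAt ℝ ∞ (fun y : EV n × (ι → EV n) => W.c a y.1) y :=
    ContDiffAt.comp (g := W.c a) y (W.contDiffAt_c hy) contDiffAt_fst
  refine h1.prodMk ?_
  rw [contDiffAt_pi]
  intro i
  have h2 : ContDiffAt ℝ ∞ (fderiv ℝ (W.c a)) y.1 :=
    (W.contDiffAt_c hy).fderiv_right (m := ∞) (by simp)
  have h3 : ContDiffAt ℝ ∞ (fun y : EV n × (ι → EV n) => fderiv ℝ (W.c a) y.1) y :=
    ContDiffAt.comp (g := fderiv ℝ (W.c a)) y h2 contDiffAt_fst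
  have h4 : ContDiffAt ℝ ∞ (fun y : EV n × (ι → EV n) => y.2 i) y :=
    ((contDiff_apply ℝ (EV n) i).contDiffAt).comp y contDiffAt_snd
  exact h3.clm_apply h4

theorem continuous_fE [Nonempty ι] : Continuous (W.fE (ι := ι)) := by
  rw [continuous_iff_continuousAt]
  intro f
  have hf : f.pt ∈ (chartAt (EV n) f.pt).source := mem_chart_source _ _
  have h1 : ContinuousAt (fun f' : LF ι n M => W.fc f.pt (chF f.pt f')) f :=
    ContinuousAt.comp (g := W.fc f.pt)
      (W.contDiffAt_fc ((chartAt (EV n) f.pt).map_source hf)).continuousAt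
      (continuousAt_chF f.pt hf)
  refine h1.congr ?_
  filter_upwards [continuous_LF_pt.continuousAt.preimage_mem_nhds
    ((chartAt (EV n) f.pt).open_source.mem_nhds hf)] with q hq
  exact (W.fE_eq f.pt hq).symm

/-- the derivative of the embedding is injective -/
theorem injective_fderiv_fc {a : M} {y : EV n × (ι → EV n)}
    (hy : y.1 ∈ (chartAt (EV n) a).target) : Function.Injective (fderiv ℝ (W.fc a) y) := by
  have hc := W.contDiffAt_c hy
  have h2 : ContDiffAt ℝ ∞ (fderiv ℝ (W.c a)) y.1 := hc.fderiv_right (m := ∞) (by simp)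
  have hd : HasFDerivAt (W.fc a)
      ((((fderiv ℝ (W.c a) y.1).comp (ContinuousLinearMap.fst ℝ (EV n) (ι → EV n))).prod
        (ContinuousLinearMap.pi fun i =>
          ((fderiv ℝ (W.c a) y.1).comp ((ContinuousLinearMap.proj i).comp
            (ContinuousLinearMap.snd ℝ (EV n) (ι → EV n)))) +
          ((fderiv ℝ (fderiv ℝ (W.c a)) y.1).comp
            (ContinuousLinearMap.fst ℝ (EV n) (ι → EV n))).flip (y.2 i)))) y := by
    have h1 : HasFDerivAt (fun y : EV n × (ι → EV n) => W.c a y.1)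
        ((fderiv ℝ (W.c a) y.1).comp (ContinuousLinearMap.fst ℝ (EV n) (ι → EV n))) y :=
      HasFDerivAt.comp (g := W.c a) y (hc.differentiableAt (by simp)).hasFDerivAt hasFDerivAt_fst
    refine h1.prodMk ?_
    rw [hasFDerivAt_pi]
    intro i
    have h3 : HasFDerivAt (fun y : EV n × (ι → EV n) => fderiv ℝ (W.c a) y.1)
        ((fderiv ℝ (fderiv ℝ (W.c a)) y.1).comp
          (ContinuousLinearMap.fst ℝ (EV n) (ι → EV n))) y :=
      HasFDerivAt.comp (g := fderiv ℝ (W.c a)) y (h2.differentiableAt (by simp)).hasFDerivAt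
        hasFDerivAt_fst
    have h4 : HasFDerivAt (fun y : EV n × (ι → EV n) => y.2 i)
        ((ContinuousLinearMap.proj i).comp
            (ContinuousLinearMap.snd ℝ (EV n) (ι → EV n))) y :=
      ((ContinuousLinearMap.proj i : (ι → EV n) →L[ℝ] EV n).comp
            (ContinuousLinearMap.snd ℝ (EV n) (ι → EV n))).hasFDerivAt
    exact h3.clm_apply h4
  rw [hd.fderiv]
  rw [injective_iff_map_eq_zero]
  rintro ⟨h, k⟩ hhk
  have e1 : fderiv ℝ (W.c a) y.1 h = 0 := congrArg Prod.fst hhk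
  have e2 : h = 0 := by
    apply W.imm a y.1 hy
    rw [map_zero]
    exact e1
  subst e2
  have e3 : ∀ i, fderiv ℝ (W.c a) y.1 (k i) = 0 := fun i => by
    have e4 := congrFun (congrArg Prod.snd hhk) i
    simpa using e4
  have e5 : k = 0 := by
    funext i
    apply W.imm a y.1 hy
    rw [Pi.zero_apply, map_zero]
    exact e3 i
  rw [e5]
  rfl

end ChEmb

end Vale.Agent.P207.N3.H465
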