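import Vale.Agent.P207.N3.H465.XMet

/-!
# P207, line N3, R16: rotations and the metric of the frame bundle

* `exists_rot_bound`: `|A i j - 1 i j| ≤ C * dist (rot A f) f` and, if `|A i j - 1 i j| ≤ B` for
  all `i, j`, `dist (rot A f) f ≤ C * B`.
-/

open scoped Manifold ContDiff ENNReal Topology NNReal
open Bundle MeasureTheory Set Filter Topology

noncomputable section

set_option maxSynthPendingDepth 3
set_option linter.unusedSectionVars false

namespace Vale.Agent.P207.N3.H465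

open Vale.Agent.P207.Q
open Vale.Agent.P255 (RMetric coefIn Gam Riem IsGeo Metric Npc ExpSys toMetric geo expg cc trans
  IsGeodesic coefL chris chrisB IsMetricOn covD)

variable {n : ℕ} {M : Type} [TopologicalSpace M] [ChartedSpace (EV n) M]
  [IsManifold 𝓘(ℝ, EV n) ∞ M] [CompactSpace M] [T2Space M]

theorem ip_e {g : RMetric (EV n) M} (f : Fr g) (i j : Fin n) :
    (mt g).ip f.pt (f.e i) (f.e j) = if i = j then 1 else 0 :=
  (ip_eq g f.pt (f.e i) (f.e j)).trans (f.inner_e i j)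

/-- the norm of a vector in terms of its coordinates in the frame -/
theorem ip_sum {g : RMetric (EV n) M} (f : Fr g) (b : Fin n → ℝ) :
    (mt g).ip f.pt (∑ i, b i • f.e i) (∑ i, b i • f.e i) = ∑ i, b i * b i := by
  have h1 : ∀ k, (mt g).ip f.pt (∑ i, b i • f.e i) (f.e k) = b k := by
    intro k
    rw [map_sum, sum_apply]
    simp only [map_smul, smul_apply, ip_e, smul_eq_mul]
    rw [Finset.sum_eq_single k]
    · simp
    · intro i _ hik
      rw [if_neg hik, mul_zero]
    · intro h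
      exact absurd (Finset.mem_univ k) h
  rw [map_sum]
  refine Finset.sum_congr rfl fun i _ => ?_
  rw [map_smul, h1, smul_eq_mul]

theorem abs_le_nm {g : RMetric (EV n) M} (f : Fr g) (b : Fin n → ℝ) (i : Fin n) :
    |b i| ≤ nm g f.pt (∑ i, b i • f.e i) := by
  refine Real.abs_le_sqrt ?_
  rw [ip_sum, sq]
  exact Finset.single_le_sum (f := fun i => b i * b i) (fun k _ => mul_self_nonneg _)
    (Finset.mem_univ i)

theorem nm_e {g : RMetric (EV n) M} (f : Fr g) (i : Fin n) : nm g f.pt (f.e i) = 1 := by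
  unfold nm
  rw [ip_e, if_pos rfl, Real.sqrt_one]

theorem frE_rot_sub {g : RMetric (EV n) M} (A : Fr.On n) (f : Fr g) (j : Fin n) :
    (frE (Fr.rot A f) - frE f).2 j =
      emD (n := n) f.pt (∑ i, (A.1 i j - (1 : Matrix (Fin n) (Fin n) ℝ) i j) • f.e i) := by
  have h1 : (frE (Fr.rot A f)).2 j = emD (n := n) f.pt (∑ i, A.1 i j • f.e i) := rfl
  have h2 : (frE f).2 j = emD (n := n) f.pt (f.e j) := rfl
  have h3 : ∑ i, (A.1 i j - (1 : Matrix (Fin n) (Fin n) ℝ) i j) • f.e i =
      (∑ i, A.1 i j • f.e i) - f.e j := by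
    simp only [sub_smul, Finset.sum_sub_distrib]
    congr 1
    rw [Finset.sum_eq_single j]
    · rw [Matrix.one_apply_eq, one_smul]
    · intro i _ hij
      rw [Matrix.one_apply_ne hij, zero_smul]
    · intro h
      exact absurd (Finset.mem_univ j) h
  rw [h3, map_sub, Prod.snd_sub, Pi.sub_apply, h1, h2]

theorem frE_rot_sub_fst {g : RMetric (EV n) M} (A : Fr.On n) (f : Fr g) :
    (frE (Fr.rot A f) - frE f).1 = 0 := by
  have h1 : (frE (Fr.rot A f)).1 = (frE f).1 := rfl
  rw [Prod.fst_sub, h1, sub_self]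

/-- rotations: the distance to the identity is comparable with the displacement -/
theorem exists_rot_bound [NeZero n] (g : RMetric (EV n) M) : ∃ C : ℝ, 0 < C ∧
    ∀ (A : Fr.On n) (f : Fr g),
      (∀ i j, |A.1 i j - (1 : Matrix (Fin n) (Fin n) ℝ) i j| ≤ C * dist (Fr.rot A f) f) ∧
      ∀ B : ℝ, 0 ≤ B → (∀ i j, |A.1 i j - (1 : Matrix (Fin n) (Fin n) ℝ) i j| ≤ B) →
        dist (Fr.rot A f) f ≤ C * B := by
  obtain ⟨C, hC, hC'⟩ := exists_nm_bound g
  refine ⟨C * n + C, by positivity, fun A f => ⟨fun i j => ?_, fun B hB hAB => ?_⟩⟩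
  · have h1 := abs_le_nm f (fun i => A.1 i j - (1 : Matrix (Fin n) (Fin n) ℝ) i j) i
    refine h1.trans ((hC' _ _).2.trans ?_)
    rw [← frE_rot_sub, dist_fr]
    have h2 : ‖(frE (Fr.rot A f) - frE f).2 j‖ ≤ ‖frE (Fr.rot A f) - frE f‖ :=
      (norm_le_pi_norm _ j).trans (norm_snd_le _)
    have h3 : 0 ≤ C * n * ‖frE (Fr.rot A f) - frE f‖ := by positivity
    rw [add_mul]
    linarith [mul_le_mul_of_nonneg_left h2 hC.le]
  · have h0 : 0 ≤ C * n * B := by positivity
    have h0' : 0 ≤ C * B := by positivity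
    rw [dist_fr, Prod.norm_def, frE_rot_sub_fst, norm_zero]
    refine max_le (by rw [add_mul]; linarith) ?_
    rw [pi_norm_le_iff_of_nonneg (by rw [add_mul]; linarith)]
    intro j
    rw [frE_rot_sub, map_sum]
    refine (norm_sum_le _ _).trans ?_
    have h1 : ∀ i ∈ (Finset.univ : Finset (Fin n)),
        ‖emD (n := n) f.pt ((A.1 i j - (1 : Matrix (Fin n) (Fin n) ℝ) i j) • f.e i)‖ ≤ B * C := by
      intro i _
      rw [map_smul, norm_smul, Real.norm_eq_abs]
      refine mul_le_mul (hAB i j) ?_ (norm_nonneg _) hB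
      have h2 := (hC' f.pt (f.e i)).1
      rwa [nm_e, mul_one] at h2
    refine (Finset.sum_le_sum h1).trans ?_
    rw [Finset.sum_const, Finset.card_univ, Fintype.card_fin, nsmul_eq_mul]
    have h3 : (n : ℝ) * (B * C) = C * n * B := by ring
    rw [h3, add_mul]
    linarith

variable {g : RMetric (EV n) M} {h : Npc (mt g)} {p : M}

theorem Xt.dist_rot [NeZero n] (A : Fr.On n) (x : Xt g h p) :
    dist (Xt.rot A x) x = dist (Fr.rot A x.f) x.f := by
  rw [PB.dist_eq, Xt.q_rot, dd_self, Xt.f_rot]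
  exact max_eq_right dist_nonneg

/-- rotations of `X` -/
theorem Xt.exists_rot_bound [NeZero n] (g : RMetric (EV n) M) (h : Npc (mt g)) (p : M) :
    ∃ C : ℝ, 0 < C ∧ ∀ (A : Fr.On n) (x : Xt g h p),
      (∀ i j, |A.1 i j - (1 : Matrix (Fin n) (Fin n) ℝ) i j| ≤ C * dist (Xt.rot A x) x) ∧
      ∀ B : ℝ, 0 ≤ B → (∀ i j, |A.1 i j - (1 : Matrix (Fin n) (Fin n) ℝ) i j| ≤ B) →
        dist (Xt.rot A x) x ≤ C * B := by
  obtain ⟨C, hC, H⟩ := H465.exists_rot_bound g
  refine ⟨C, hC, fun A x => ?_⟩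
  rw [Xt.dist_rot]
  exact H A x.f

end Vale.Agent.P207.N3.H465
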